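import Vale.Agent.P159.Deriv

/-!
# P159: the square lattice, the infinite-volume two-point function and its decay rate
-/

open Real Filter Topology

namespace Vale.Agent.P159

/-- Squared distance in `ℤ²`. -/
def dsq (p q : ℤ × ℤ) : ℤ := (p.1 - q.1) ^ 2 + (p.2 - q.2) ^ 2

theorem dsq_comm (p q : ℤ × ℤ) : dsq p q = dsq q p := by unfold dsq; ring

/-- Adjacency as a number. -/
def adj (p q : ℤ × ℤ) : ℝ := if dsq p q = 1 then 1 else 0

theorem adj_comm (p q : ℤ × ℤ) : adj p q = adj q p := by rw [adj, adj, dsq_comm]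

theorem adj_nonneg (p q : ℤ × ℤ) : 0 ≤ adj p q := by unfold adj; split_ifs <;> norm_num

/-- The couplings of a finite region with free boundary, each bond split over its two orientations. -/
noncomputable def coup (b : ℝ) (S : Finset (ℤ × ℤ)) (p q : ↥S) : ℝ := b / 2 * adj p.1 q.1

theorem coup_nonneg {b : ℝ} (hb : 0 ≤ b) (S : Finset (ℤ × ℤ)) (p q : ↥S) : 0 ≤ coup b S p q :=
  mul_nonneg (by linarith) (adj_nonneg _ _)

/-- The two-point function of a finite region (zero outside of it). -/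
noncomputable def corrS (b : ℝ) (S : Finset (ℤ × ℤ)) (x y : ℤ × ℤ) : ℝ :=
  if h : x ∈ S ∧ y ∈ S then corr (coup b S) ⟨x, h.1⟩ ⟨y, h.2⟩ else 0

theorem corrS_of_mem {b : ℝ} {S : Finset (ℤ × ℤ)} {x y : ℤ × ℤ} (hx : x ∈ S) (hy : y ∈ S) :
    corrS b S x y = corr (coup b S) ⟨x, hx⟩ ⟨y, hy⟩ := dif_pos ⟨hx, hy⟩

theorem corrS_coe (b : ℝ) (S : Finset (ℤ × ℤ)) (x y : ↥S) :
    corrS b S x y = corr (coup b S) x y := corrS_of_mem x.2 y.2

theorem corrS_nonneg {b : ℝ} (hb : 0 ≤ b) (S : Finset (ℤ × ℤ)) (x y : ℤ × ℤ) : 0 ≤ corrS b S x y := by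
  unfold corrS
  split_ifs
  · exact corr_nonneg (coup_nonneg hb S) _ _
  · exact le_rfl

theorem corrS_le_one (b : ℝ) (S : Finset (ℤ × ℤ)) (x y : ℤ × ℤ) : corrS b S x y ≤ 1 := by
  unfold corrS
  split_ifs
  · exact corr_le_one _ _ _
  · exact zero_le_one

theorem corrS_comm (b : ℝ) (S : Finset (ℤ × ℤ)) (x y : ℤ × ℤ) : corrS b S x y = corrS b S y x := by
  by_cases h : x ∈ S ∧ y ∈ S
  · rw [corrS_of_mem h.1 h.2, corrS_of_mem h.2 h.1, corr_comm]
  · rw [corrS, dif_neg h, corrS, dif_neg fun h' => h h'.symm]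

theorem corrS_mul_le {b : ℝ} (hb : 0 ≤ b) (S : Finset (ℤ × ℤ)) (x y z : ℤ × ℤ) :
    corrS b S x y * corrS b S y z ≤ 2 * corrS b S x z := by
  by_cases h : (x ∈ S ∧ y ∈ S) ∧ z ∈ S
  · rw [corrS_of_mem h.1.1 h.1.2, corrS_of_mem h.1.2 h.2, corrS_of_mem h.1.1 h.2]
    exact corr_mul_le (coup_nonneg hb S) _ _ _
  · have : corrS b S x y * corrS b S y z = 0 := by
      rcases not_and_or.1 h with h | h
      · rw [corrS, dif_neg h, zero_mul]
      · rw [mul_comm, corrS, dif_neg fun h' => h h'.2, zero_mul]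
    rw [this]
    exact mul_nonneg zero_le_two (corrS_nonneg hb S x z)

theorem corrS_mono_set {b : ℝ} (hb : 0 ≤ b) {S T : Finset (ℤ × ℤ)} (h : S ⊆ T) (x y : ℤ × ℤ) :
    corrS b S x y ≤ corrS b T x y := by
  by_cases hxy : x ∈ S ∧ y ∈ S
  swap
  · rw [corrS, dif_neg hxy]; exact corrS_nonneg hb T x y
  rw [corrS_of_mem hxy.1 hxy.2, corrS_of_mem (h hxy.1) (h hxy.2)]
  set J' : ↥T → ↥T → ℝ := fun p q => if p.1 ∈ S ∧ q.1 ∈ S then coup b T p q else 0
  have h0 : ∀ p q, 0 ≤ J' p q := fun p q => by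
    simp only [J']; split_ifs; exacts [coup_nonneg hb T p q, le_rfl]
  refine le_of_eq_of_le ?_ (corr_mono h0 (fun p q => by
    simp only [J']; split_ifs; exacts [le_rfl, coup_nonneg hb T p q]) _ _)
  refine (corr_comp (j := fun p : ↥S => (⟨p.1, h p.2⟩ : ↥T)) (fun p q e => Subtype.ext (congrArg Subtype.val e :))
    (fun p q => by simp [J', coup]) (fun p q hpq => ?_) ⟨x, hxy.1⟩ ⟨y, hxy.2⟩).symm
  by_cases hm : p.1 ∈ S ∧ q.1 ∈ S
  · exact ⟨⟨⟨p.1, hm.1⟩, rfl⟩, ⟨⟨q.1, hm.2⟩, rfl⟩⟩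
  · exact absurd (if_neg hm) hpq

theorem corrS_mono_temp {b b' : ℝ} (hb : 0 ≤ b) (h : b ≤ b') (S : Finset (ℤ × ℤ)) (x y : ℤ × ℤ) :
    corrS b S x y ≤ corrS b' S x y := by
  unfold corrS
  split_ifs
  · exact corr_mono (coup_nonneg hb S) (fun p q => mul_le_mul_of_nonneg_right (by linarith) (adj_nonneg _ _)) _ _
  · exact le_rfl

theorem corrS_map (b : ℝ) {f : ℤ × ℤ → ℤ × ℤ} (hf : Function.Injective f)
    (hd : ∀ p q, dsq (f p) (f q) = dsq p q) (S : Finset (ℤ × ℤ)) {x y : ℤ × ℤ} (hx : x ∈ S) (hy : y ∈ S) :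
    corrS b (S.image f) (f x) (f y) = corrS b S x y := by
  rw [corrS_of_mem hx hy, corrS_of_mem (Finset.mem_image_of_mem f hx) (Finset.mem_image_of_mem f hy)]
  refine corr_comp (j := fun p : ↥S => (⟨f p.1, Finset.mem_image_of_mem f p.2⟩ : ↥(S.image f)))
    (fun p q e => Subtype.ext (hf (congrArg Subtype.val e :))) (fun p q => by simp [coup, adj, hd])
    (fun p q _ => ?_) ⟨x, hx⟩ ⟨y, hy⟩
  constructor
  · obtain ⟨s, hs, e⟩ := Finset.mem_image.1 p.2
    exact ⟨⟨s, hs⟩, Subtype.ext e⟩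
  · obtain ⟨s, hs, e⟩ := Finset.mem_image.1 q.2
    exact ⟨⟨s, hs⟩, Subtype.ext e⟩

/-- The sup norm. -/
def nrm (x : ℤ × ℤ) : ℕ := max x.1.natAbs x.2.natAbs

theorem nrm_add_le (x y : ℤ × ℤ) : nrm (x + y) ≤ nrm x + nrm y := by
  simp only [nrm, Prod.fst_add, Prod.snd_add]; omega

theorem nrm_le_of_adj {p q : ℤ × ℤ} (h : dsq p q = 1) : nrm p ≤ nrm q + 1 := by
  have h1 : (p.1 - q.1) ^ 2 ≤ 1 := by unfold dsq at h; nlinarith [sq_nonneg (p.2 - q.2)]
  have h2 : (p.2 - q.2) ^ 2 ≤ 1 := by unfold dsq at h; nlinarith [sq_nonneg (p.1 - q.1)]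
  rw [sq_le_one_iff_abs_le_one, abs_le] at h1 h2
  simp only [nrm]; omega

/-- The box `[-R,R]²`. -/
noncomputable def box (R : ℕ) : Finset (ℤ × ℤ) := Finset.Icc (-(R : ℤ), -(R : ℤ)) (R, R)

theorem mem_box {R : ℕ} {x : ℤ × ℤ} : x ∈ box R ↔ nrm x ≤ R := by
  rw [box, Finset.mem_Icc, Prod.le_def, Prod.le_def, nrm]
  dsimp only
  omega

theorem box_mono : Monotone box := fun _ _ h x hx => mem_box.2 ((mem_box.1 hx).trans h)

theorem zero_mem_box (R : ℕ) : (0 : ℤ × ℤ) ∈ box R := mem_box.2 (by simp [nrm])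

theorem exists_box (S : Finset (ℤ × ℤ)) : ∃ R, S ⊆ box R :=
  ⟨S.sup nrm, fun _ hx => mem_box.2 (Finset.le_sup (f := nrm) hx)⟩

/-- The infinite-volume two-point function. -/
noncomputable def C (b : ℝ) (x y : ℤ × ℤ) : ℝ := ⨆ R : ℕ, corrS b (box R) x y

theorem bddAbove_corrS (b : ℝ) (x y : ℤ × ℤ) : BddAbove (Set.range fun R : ℕ => corrS b (box R) x y) :=
  ⟨1, by rintro _ ⟨R, rfl⟩; exact corrS_le_one b _ x y⟩

theorem tendsto_C {b : ℝ} (hb : 0 ≤ b) (x y : ℤ × ℤ) :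
    Tendsto (fun R : ℕ => corrS b (box R) x y) atTop (𝓝 (C b x y)) :=
  tendsto_atTop_ciSup (fun _ _ h => corrS_mono_set hb (box_mono h) x y) (bddAbove_corrS b x y)

theorem corrS_le_C {b : ℝ} (hb : 0 ≤ b) (S : Finset (ℤ × ℤ)) (x y : ℤ × ℤ) : corrS b S x y ≤ C b x y := by
  obtain ⟨R, hR⟩ := exists_box S
  exact (corrS_mono_set hb hR x y).trans (le_ciSup (bddAbove_corrS b x y) R)

theorem C_nonneg {b : ℝ} (hb : 0 ≤ b) (x y : ℤ × ℤ) : 0 ≤ C b x y :=
  (corrS_nonneg hb ∅ x y).trans (corrS_le_C hb ∅ x y)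

theorem C_le_one (b : ℝ) (x y : ℤ × ℤ) : C b x y ≤ 1 := ciSup_le fun _ => corrS_le_one b _ x y

theorem C_comm (b : ℝ) (x y : ℤ × ℤ) : C b x y = C b y x := by simp only [C, corrS_comm b _ x y]

theorem C_self {b : ℝ} (hb : 0 ≤ b) (x : ℤ × ℤ) : C b x x = 1 := by
  refine le_antisymm (C_le_one b x x) (le_of_eq_of_le ?_ (corrS_le_C hb {x} x x))
  rw [corrS_of_mem (Finset.mem_singleton_self x) (Finset.mem_singleton_self x), corr_self]

theorem C_mul_le {b : ℝ} (hb : 0 ≤ b) (x y z : ℤ × ℤ) : C b x y * C b y z ≤ 2 * C b x z :=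
  le_of_tendsto_of_tendsto' ((tendsto_C hb x y).mul (tendsto_C hb y z)) ((tendsto_C hb x z).const_mul 2)
    fun R => corrS_mul_le hb (box R) x y z

theorem C_mono_temp {b b' : ℝ} (hb : 0 ≤ b) (h : b ≤ b') (x y : ℤ × ℤ) : C b x y ≤ C b' x y :=
  ciSup_le fun R => (corrS_mono_temp hb h _ x y).trans (corrS_le_C (hb.trans h) _ x y)

theorem C_le_map {b : ℝ} (hb : 0 ≤ b) {f : ℤ × ℤ → ℤ × ℤ} (hf : Function.Injective f)
    (hd : ∀ p q, dsq (f p) (f q) = dsq p q) (x y : ℤ × ℤ) : C b x y ≤ C b (f x) (f y) := by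
  refine ciSup_le fun R => ?_
  by_cases h : x ∈ box R ∧ y ∈ box R
  · rw [← corrS_map b hf hd (box R) h.1 h.2]; exact corrS_le_C hb _ _ _
  · rw [corrS, dif_neg h]; exact C_nonneg hb _ _

/-- The two-point function as a function of the separation. -/
noncomputable def G (b : ℝ) (x : ℤ × ℤ) : ℝ := C b 0 x

theorem C_eq_G {b : ℝ} (hb : 0 ≤ b) (x y : ℤ × ℤ) : C b x y = G b (y - x) := by
  have hd : ∀ v p q : ℤ × ℤ, dsq (p + v) (q + v) = dsq p q := fun v p q => by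
    simp only [dsq, Prod.fst_add, Prod.snd_add]; ring
  refine le_antisymm ?_ ?_
  · have := C_le_map hb (f := fun p => p + -x) (add_left_injective _) (hd _) x y
    rwa [add_neg_cancel, ← sub_eq_add_neg] at this
  · have := C_le_map hb (f := fun p => p + x) (add_left_injective _) (hd _) 0 (y - x)
    rwa [zero_add, sub_add_cancel] at this

theorem G_nonneg {b : ℝ} (hb : 0 ≤ b) (x : ℤ × ℤ) : 0 ≤ G b x := C_nonneg hb _ _

theorem G_le_one (b : ℝ) (x : ℤ × ℤ) : G b x ≤ 1 := C_le_one _ _ _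

theorem G_zero {b : ℝ} (hb : 0 ≤ b) : G b 0 = 1 := C_self hb 0

theorem G_mul_le {b : ℝ} (hb : 0 ≤ b) (x y : ℤ × ℤ) : G b x * G b y ≤ 2 * G b (x + y) := by
  have := C_mul_le hb 0 x (x + y)
  rwa [C_eq_G hb x (x + y), add_sub_cancel_left] at this

theorem G_neg {b : ℝ} (hb : 0 ≤ b) (x : ℤ × ℤ) : G b (-x) = G b x := by
  rw [← zero_sub, ← C_eq_G hb, C_comm]; rfl

theorem G_le_swap {b : ℝ} (hb : 0 ≤ b) (a c : ℤ) : G b (a, c) ≤ G b (c, a) :=
  C_le_map hb (f := fun p => (p.2, p.1)) (fun p q h => by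
    simp only [Prod.mk.injEq] at h; exact Prod.ext h.2 h.1) (fun p q => by unfold dsq; ring) 0 (a, c)

theorem G_le_flip {b : ℝ} (hb : 0 ≤ b) (a c : ℤ) : G b (a, c) ≤ G b (a, -c) :=
  C_le_map hb (f := fun p => (p.1, -p.2)) (fun p q h => by
    simp only [Prod.mk.injEq, neg_inj] at h; exact Prod.ext h.1 h.2) (fun p q => by unfold dsq; ring) 0 (a, c)

/-- The axis two-point function. -/
noncomputable def g (b : ℝ) (r : ℕ) : ℝ := G b ((r : ℤ), 0)

theorem g_mul_le {b : ℝ} (hb : 0 ≤ b) (m n : ℕ) : g b m * g b n ≤ 2 * g b (m + n) := by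
  refine (G_mul_le hb _ _).trans_eq ?_
  simp [g]

theorem g_one_pos {b : ℝ} (hb : 0 < b) : 0 < g b 1 := by
  refine lt_of_lt_of_le ?_ (corrS_le_C hb.le (box 1) 0 ((1 : ℕ), 0))
  have h1 : ((((1 : ℕ) : ℤ)), (0 : ℤ)) ∈ box 1 := mem_box.2 (by simp [nrm])
  rw [corrS_of_mem (zero_mem_box 1) h1]
  refine corr_pos_of_coupling (coup_nonneg hb.le _) ?_
  simp [coup, adj, dsq, hb]

theorem g_pos {b : ℝ} (hb : 0 < b) : ∀ r, 0 < g b r
  | 0 => by simp [g, show ((0 : ℤ), (0 : ℤ)) = (0 : ℤ × ℤ) from rfl, G_zero hb.le]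
  | r + 1 => by
    have := g_mul_le hb.le r 1
    have := mul_pos (g_pos hb r) (g_one_pos hb)
    linarith

/-- The decay rate. -/
noncomputable def mass (b : ℝ) : ℝ := sInf ((fun n : ℕ => -log (g b n / 2) / n) '' Set.Ici 1)

theorem neg_log_nonneg {b : ℝ} (hb : 0 ≤ b) (n : ℕ) : 0 ≤ -log (g b n / 2) :=
  neg_nonneg.2 (log_nonpos (div_nonneg (G_nonneg hb _) zero_le_two)
    (by linarith [G_le_one b ((n : ℤ), 0), G_nonneg hb ((n : ℤ), 0), show g b n = G b ((n : ℤ), 0) from rfl]))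

theorem mass_nonneg {b : ℝ} (hb : 0 ≤ b) : 0 ≤ mass b :=
  Real.sInf_nonneg (by rintro _ ⟨n, -, rfl⟩; exact div_nonneg (neg_log_nonneg hb n) (Nat.cast_nonneg n))

theorem subadditive_log {b : ℝ} (hb : 0 < b) : Subadditive fun n => -log (g b n / 2) := by
  intro m n
  have hm := g_pos hb m
  have hn := g_pos hb n
  show -log (g b (m + n) / 2) ≤ -log (g b m / 2) + -log (g b n / 2)
  rw [← neg_add, ← log_mul (by positivity) (by positivity)]
  exact neg_le_neg (log_le_log (by positivity) (by nlinarith [g_mul_le hb.le m n]))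

theorem tendsto_mass' {b : ℝ} (hb : 0 < b) :
    Tendsto (fun n : ℕ => -log (g b n / 2) / n) atTop (𝓝 (mass b)) :=
  by
    have := (subadditive_log hb).tendsto_lim
      ⟨0, by rintro _ ⟨n, rfl⟩; exact div_nonneg (neg_log_nonneg hb.le n) (Nat.cast_nonneg n)⟩
    simpa only [Subadditive.lim, mass] using this

theorem tendsto_mass {b : ℝ} (hb : 0 < b) :
    Tendsto (fun n : ℕ => -log (g b n) / n) atTop (𝓝 (mass b)) := by
  have := (tendsto_mass' hb).sub (tendsto_natCast_atTop_atTop.const_div_atTop (log 2))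
  rw [sub_zero] at this
  refine this.congr fun n => ?_
  rw [log_div (g_pos hb n).ne' two_ne_zero]
  ring

theorem g_le_exp {b : ℝ} (hb : 0 < b) (n : ℕ) : g b n ≤ 2 * exp (-(mass b * n)) := by
  rcases Nat.eq_zero_or_pos n with rfl | hn
  · have := G_le_one b (((0 : ℕ) : ℤ), 0)
    simp only [Nat.cast_zero, mul_zero, neg_zero, exp_zero, g] at this ⊢
    linarith
  have h : mass b ≤ -log (g b n / 2) / n :=
    csInf_le ⟨0, by rintro _ ⟨k, -, rfl⟩; exact div_nonneg (neg_log_nonneg hb.le k) (Nat.cast_nonneg k)⟩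
      ⟨n, hn, rfl⟩
  rw [le_div_iff₀ (by exact_mod_cast hn)] at h
  have := (log_le_iff_le_exp (by linarith [g_pos hb n] : 0 < g b n / 2)).1 (by linarith : log (g b n / 2) ≤ -(mass b * n))
  linarith

theorem mass_antitone {b b' : ℝ} (hb : 0 < b) (h : b ≤ b') : mass b' ≤ mass b :=
  le_of_tendsto_of_tendsto' (tendsto_mass (hb.trans_le h)) (tendsto_mass hb) fun n =>
    div_le_div_of_nonneg_right (neg_le_neg (log_le_log (g_pos hb n) (C_mono_temp hb.le h _ _))) (Nat.cast_nonneg n)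

/-- Exponential decay in every direction. -/
theorem G_le_exp {b : ℝ} (hb : 0 < b) (x : ℤ × ℤ) : G b x ≤ 2 * exp (-(mass b * nrm x)) := by
  have key : ∀ a c : ℤ, G b (a, c) ≤ 2 * exp (-(mass b * a.natAbs)) := by
    intro a c
    have hsq : G b (a, c) ^ 2 ≤ 2 * g b (2 * a.natAbs) := by
      have h1 := G_mul_le hb.le (a, c) (a, -c)
      rw [sq]
      refine (mul_le_mul_of_nonneg_left (G_le_flip hb.le a c) (G_nonneg hb.le _)).trans (h1.trans_eq ?_)
      rw [g, Prod.mk_add_mk, add_neg_cancel]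
      congr 1
      rcases Int.natAbs_eq a with e | e
      · congr 2; omega
      · rw [← G_neg hb.le, Prod.neg_mk, neg_zero]; congr 2; omega
    have h2 := g_le_exp hb (2 * a.natAbs)
    have e : exp (-(mass b * ((2 * a.natAbs : ℕ) : ℝ))) = exp (-(mass b * a.natAbs)) ^ 2 := by
      rw [← exp_nat_mul]; push_cast; ring_nf
    rw [e] at h2
    nlinarith [G_nonneg hb.le (a, c), exp_pos (-(mass b * a.natAbs))]
  obtain ⟨a, c⟩ := x
  rcases le_total a.natAbs c.natAbs with h | h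
  · rw [nrm, max_eq_right h]
    exact (G_le_swap hb.le a c).trans (key c a)
  · rw [nrm, max_eq_left h]
    exact key a c

end Vale.Agent.P159
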