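import Vale.Agent.P159.Stab

/-!
# P159: power-law decay at every temperature, and the resulting bound on the mass
-/

open Real Filter Topology

namespace Vale.Agent.P159

theorem cosh_sub_one_le_sq {x : ℝ} (hx : |x| ≤ 1) : cosh x - 1 ≤ x ^ 2 := by
  have hx2 : x ^ 2 ≤ 1 := by rw [← sq_abs]; exact pow_le_one₀ (abs_nonneg x) hx
  have h0 : |x ^ 2 / 2| = x ^ 2 / 2 := abs_of_nonneg (by positivity)
  have h := (abs_le.1 (abs_exp_sub_one_le (x := x ^ 2 / 2) (by rw [h0]; linarith))).2
  rw [h0] at h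
  linarith [cosh_le_exp_half_sq x]

theorem card_sphere_le (S : Finset (ℤ × ℤ)) (k : ℕ) :
    ((S.filter fun u => nrm u = k).card : ℝ) ≤ 8 * ((k : ℝ) + 1) := by
  have hsub : S.filter (fun u => nrm u = k) ⊆
      ({-(k : ℤ), (k : ℤ)} ×ˢ Finset.Icc (-(k : ℤ)) k) ∪ (Finset.Icc (-(k : ℤ)) k ×ˢ {-(k : ℤ), (k : ℤ)}) := by
    intro u hu
    have h := (Finset.mem_filter.1 hu).2
    simp only [nrm] at h
    simp only [Finset.mem_union, Finset.mem_product, Finset.mem_insert, Finset.mem_singleton, Finset.mem_Icc]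
    omega
  have h2 : ({-(k : ℤ), (k : ℤ)} : Finset ℤ).card ≤ 2 := Finset.card_le_two
  have hI : (Finset.Icc (-(k : ℤ)) k).card = 2 * k + 1 := by rw [Int.card_Icc]; omega
  have h := (Finset.card_le_card hsub).trans (Finset.card_union_le _ _)
  rw [Finset.card_product, Finset.card_product, hI] at h
  have : (S.filter fun u => nrm u = k).card ≤ 8 * (k + 1) := by nlinarith
  exact_mod_cast this

/-- The exponent gained over `1/2`. -/
noncomputable def pExp (B : ℝ) : ℝ := min 1 (1 / (64 * B)) / 4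

theorem pExp_pos {B : ℝ} (hB : 0 < B) : 0 < pExp B := div_pos (lt_min one_pos (by positivity)) four_pos

theorem pExp_le (B : ℝ) : pExp B ≤ 1 / 4 := div_le_div_of_nonneg_right (min_le_left _ _) zero_le_four

/-- McBryan–Spencer: correlations decay at least like a power at every temperature. -/
theorem G_le_power {b B : ℝ} (hb : 0 ≤ b) (hbB : b ≤ B) (hB : 0 < B) (x : ℤ × ℤ) :
    G b x ≤ exp (1 / 2 - 2 * pExp B * log ((nrm x : ℝ) + 1)) := by
  set l := 4 * pExp B with hldef
  have hl : l = min 1 (1 / (64 * B)) := by rw [hldef, pExp]; ring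
  have hl0 : 0 < l := mul_pos four_pos (pExp_pos hB)
  have hl1 : l ≤ 1 := hl ▸ min_le_left _ _
  have hlB : 64 * b * l ≤ 1 := by
    have h1 : l ≤ 1 / (64 * B) := hl ▸ min_le_right _ _
    rw [le_div_iff₀ (by positivity)] at h1
    nlinarith
  rw [show 2 * pExp B = l / 2 by rw [hldef]; ring]
  clear_value l
  refine ciSup_le fun N => ?_
  by_cases hmem : (0 : ℤ × ℤ) ∈ box N ∧ x ∈ box N
  swap
  · rw [corrS, dif_neg hmem]; positivity
  rw [corrS_of_mem hmem.1 hmem.2]
  generalize box N = S at hmem ⊢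
  set n := nrm x with hn
  set f : ℕ → ℝ := fun k => l * (log ((n : ℝ) + 1) - log ((min k n : ℕ) + 1)) with hf
  set w : ℕ → ℝ := fun k => if k < n then (l / (k + 1)) ^ 2 else 0 with hw
  have hw0 : ∀ k, 0 ≤ w k := fun k => by simp only [hw]; split_ifs <;> positivity
  have hstep : ∀ i j : ℕ, i ≤ j → j ≤ i + 1 → |f i - f j| ≤ 1 ∧ (f i - f j) ^ 2 ≤ w i + w j := by
    intro i j hij hji
    by_cases hi : i < n
    swap
    · simp only [hf, min_eq_right (not_lt.1 hi), min_eq_right ((not_lt.1 hi).trans hij), sub_self,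
        abs_zero, zero_le_one, true_and]
      simpa using add_nonneg (hw0 i) (hw0 j)
    have hmin : min i n = i := min_eq_left hi.le
    have hj1 : ((min j n : ℕ) : ℝ) ≤ (i : ℝ) + 1 := by exact_mod_cast (min_le_left j n).trans hji
    have hj0 : (i : ℝ) ≤ (min j n : ℕ) := by exact_mod_cast le_min hij hi.le
    have e : f i - f j = l * log ((((min j n : ℕ) : ℝ) + 1) / ((i : ℝ) + 1)) := by
      simp only [hf, hmin]
      rw [log_div (by positivity) (by positivity)]
      ring
    have hq : (((min j n : ℕ) : ℝ) + 1) / ((i : ℝ) + 1) - 1 ≤ 1 / ((i : ℝ) + 1) := by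
      rw [div_sub_one (by positivity)]
      exact div_le_div_of_nonneg_right (by linarith) (by positivity)
    have hlo : 0 ≤ f i - f j := by
      rw [e]; exact mul_nonneg hl0.le (log_nonneg (by rw [le_div_iff₀ (by positivity)]; linarith))
    have hhi : f i - f j ≤ l / ((i : ℝ) + 1) := by
      rw [e, div_eq_mul_one_div l]
      exact mul_le_mul_of_nonneg_left ((log_le_sub_one_of_pos (by positivity)).trans hq) hl0.le
    refine ⟨?_, ?_⟩
    · rw [abs_of_nonneg hlo]
      exact hhi.trans ((div_le_one (by positivity)).2 (by linarith [(Nat.cast_nonneg i : (0 : ℝ) ≤ i)]))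
    · have := hw0 j
      have e2 : w i = (l / ((i : ℝ) + 1)) ^ 2 := if_pos hi
      have := pow_le_pow_left₀ hlo hhi 2
      linarith
  refine (corr_twist_le (coup_nonneg hb S) (fun z => f (nrm z.1)) _ _).trans (exp_le_exp.2 ?_)
  have hfx : f (nrm x) = 0 := by simp [hf, ← hn]
  have hf0 : f (nrm (0 : ℤ × ℤ)) = l * log ((n : ℝ) + 1) := by simp [hf, nrm]
  rw [hfx, hf0, sub_zero]
  have hcost : ∑ e : ↥S × ↥S, coup b S e.1 e.2 * (cosh (f (nrm e.1.1) - f (nrm e.2.1)) - 1)
      ≤ 4 * b * ∑ u ∈ S, w (nrm u) := by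
    have hedge : ∀ e : ↥S × ↥S, coup b S e.1 e.2 * (cosh (f (nrm e.1.1) - f (nrm e.2.1)) - 1)
        ≤ b / 2 * (w (nrm e.1.1) * adj e.1.1 e.2.1 + w (nrm e.2.1) * adj e.2.1 e.1.1) := by
      intro e
      rw [adj_comm e.2.1, ← add_mul, coup]
      by_cases hadj : dsq e.1.1 e.2.1 = 1
      swap
      · simp [adj, hadj]
      rw [show adj e.1.1 e.2.1 = 1 from if_pos hadj, mul_one, mul_one]
      refine mul_le_mul_of_nonneg_left ?_ (by linarith)
      have h1 := nrm_le_of_adj hadj
      have h2 := nrm_le_of_adj ((dsq_comm _ _).trans hadj)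
      rcases le_total (nrm e.1.1) (nrm e.2.1) with h | h
      · obtain ⟨ha, hb⟩ := hstep _ _ h h2
        exact (cosh_sub_one_le_sq ha).trans hb
      · obtain ⟨ha, hb⟩ := hstep _ _ h h1
        rw [← cosh_neg, neg_sub]
        exact (cosh_sub_one_le_sq ha).trans (hb.trans_eq (add_comm _ _))
    refine (Finset.sum_le_sum fun e _ => hedge e).trans ?_
    rw [← Finset.mul_sum, Finset.sum_add_distrib]
    have hrow : ∀ u : ↥S, ∑ v : ↥S, w (nrm u.1) * adj u.1 v.1 ≤ w (nrm u.1) * 4 := fun u => by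
      rw [← Finset.mul_sum, Finset.sum_coe_sort S (adj u.1)]
      exact mul_le_mul_of_nonneg_left (sum_adj_le S u.1) (hw0 _)
    have h1 : ∑ e : ↥S × ↥S, w (nrm e.1.1) * adj e.1.1 e.2.1 ≤ (∑ u ∈ S, w (nrm u)) * 4 := by
      rw [Fintype.sum_prod_type, ← Finset.sum_coe_sort S fun u => w (nrm u), Finset.sum_mul]
      exact Finset.sum_le_sum fun u _ => hrow u
    have h2 : ∑ e : ↥S × ↥S, w (nrm e.2.1) * adj e.2.1 e.1.1 ≤ (∑ u ∈ S, w (nrm u)) * 4 := by
      rw [← Equiv.sum_comp (Equiv.prodComm ↥S ↥S)]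
      exact h1
    nlinarith [mul_le_mul_of_nonneg_left (add_le_add h1 h2) hb]
  have hws : ∑ u ∈ S, w (nrm u) ≤ 8 * l ^ 2 * (1 + log ((n : ℝ) + 1)) := by
    simp only [hw]
    rw [← Finset.sum_filter, ← Finset.sum_fiberwise_of_maps_to (g := nrm) (t := Finset.range n)
      (fun u hu => Finset.mem_range.2 (Finset.mem_filter.1 hu).2)]
    have hH : ∑ k ∈ Finset.range n, 1 / ((k : ℝ) + 1) ≤ 1 + log ((n : ℝ) + 1) := by
      have h := harmonic_le_one_add_log n
      simp only [harmonic, Rat.cast_sum, Rat.cast_inv, Nat.cast_add, Nat.cast_one] at h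
      simp only [one_div]
      refine le_trans (le_of_eq_of_le ?_ h) ?_
      · push_cast; rfl
      · rcases Nat.eq_zero_or_pos n with h0 | h0
        · simp [h0]
        · exact add_le_add_right (log_le_log (by exact_mod_cast h0) (by linarith)) 1
    refine le_trans (Finset.sum_le_sum fun k hk => ?_)
      ((Finset.mul_sum _ _ _).symm.trans_le (mul_le_mul_of_nonneg_left hH (by positivity : (0 : ℝ) ≤ 8 * l ^ 2)))
    rw [Finset.sum_congr rfl (fun u hu => by rw [(Finset.mem_filter.1 hu).2] :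
      ∀ u ∈ (S.filter fun u => nrm u < n).filter (fun u => nrm u = k),
        (l / ((nrm u : ℝ) + 1)) ^ 2 = (l / ((k : ℝ) + 1)) ^ 2), Finset.sum_const, nsmul_eq_mul]
    refine (mul_le_mul_of_nonneg_right (card_sphere_le _ k) (by positivity)).trans_eq ?_
    field_simp
  have hsum := mul_le_mul_of_nonneg_left hws (by linarith : (0 : ℝ) ≤ 4 * b)
  have hL : 0 ≤ log ((n : ℝ) + 1) := log_nonneg (by linarith [(Nat.cast_nonneg n : (0 : ℝ) ≤ n)])
  nlinarith [mul_le_mul_of_nonneg_left hlB (mul_nonneg hl0.le (by linarith : (0 : ℝ) ≤ 1 + log ((n : ℝ) + 1)))]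

theorem sum_q_le {c : ℝ} (hc : 0 < c) (N : ℕ) :
    ∑ k ∈ Finset.range N, exp (-(c * ((k : ℝ) + 1))) ≤ 1 / c ∧
      ∑ k ∈ Finset.range N, ((k : ℝ) + 1) * exp (-(c * ((k : ℝ) + 1))) ≤ 1 / c ^ 2 := by
  set q := exp (-c) with hq
  have hq0 : 0 < q := exp_pos _
  have hq1 : q < 1 := exp_lt_one_iff.2 (by linarith)
  have e : ∀ k : ℕ, exp (-(c * ((k : ℝ) + 1))) = q ^ (k + 1) := fun k => by
    rw [hq, ← exp_nat_mul]; push_cast; ring_nf
  simp only [e]
  constructor
  · calc ∑ k ∈ Finset.range N, q ^ (k + 1) = q * ∑ k ∈ Finset.range N, q ^ k := by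
          rw [Finset.mul_sum]; simp only [pow_succ']
      _ ≤ q * (1 - q)⁻¹ := mul_le_mul_of_nonneg_left
          (sum_le_hasSum _ (fun k _ => pow_nonneg hq0.le k) (hasSum_geometric_of_lt_one hq0.le hq1)) hq0.le
      _ ≤ 1 / c := by
          rw [← div_eq_mul_inv, div_le_div_iff₀ (sub_pos.2 hq1) hc, one_mul]
          have h := add_one_le_exp c
          have hqq : q * exp c = 1 := by rw [hq, ← exp_add, neg_add_cancel, exp_zero]
          nlinarith [mul_le_mul_of_nonneg_left h hq0.le]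
  · have h := sum_le_hasSum (Finset.range (N + 1)) (fun k _ => by positivity)
      (hasSum_coe_mul_geometric_of_norm_lt_one (r := q) (by rwa [Real.norm_eq_abs, abs_of_pos hq0]))
    rw [Finset.sum_range_succ'] at h
    push_cast at h
    rw [zero_mul, add_zero] at h
    refine h.trans ?_
    rw [div_le_div_iff₀ (pow_pos (sub_pos.2 hq1) 2) (by positivity), one_mul]
    have hs : c / 2 ≤ sinh (c / 2) := self_le_sinh_iff.2 (by linarith)
    rw [sinh_eq] at hs
    set u := exp (c / 2) with hu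
    set v := exp (-(c / 2)) with hv
    have huv : u * v = 1 := by rw [hu, hv, ← exp_add, add_neg_cancel, exp_zero]
    have hqv : q = v ^ 2 := by rw [hq, hv, sq, ← exp_add]; congr 1; ring
    have h2 : v * c ≤ 1 - q := by nlinarith [mul_le_mul_of_nonneg_left hs (exp_pos (-(c / 2))).le]
    have h3 := pow_le_pow_left₀ (by positivity) h2 2
    rw [hqv] at h3 ⊢
    linarith [h3, (by ring : (v * c) ^ 2 = v ^ 2 * c ^ 2)]

/-- The susceptibility bound given exponential decay at rate `μ`. -/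
theorem bdd_of_decay {b B μ : ℝ} (hb : 0 < b) (hbB : b ≤ B) (hμ : 0 < μ) (hμ1 : μ ≤ 1) (hm : μ ≤ mass b) :
    Bdd b (384 * μ ^ (pExp B - 2)) := by
  intro R
  set p := pExp B with hp
  have hB := hb.trans_le hbB
  have hp0 : 0 < p := pExp_pos hB
  have hp1 : p ≤ 1 / 4 := pExp_le B
  set c := μ / 2 with hc
  have hc0 : 0 < c := by positivity
  have hG : ∀ u : ℤ × ℤ, G b u ≤ 6 * (((nrm u : ℝ) + 1) ^ (-p) * exp (-(c * ((nrm u : ℝ) + 1)))) := by
    intro u
    set k : ℝ := (nrm u : ℝ) + 1 with hk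
    have hk0 : 0 < k := by positivity
    have h1 := G_le_power hb.le hbB hB u
    have h2 := G_le_exp hb u
    have h3 : exp (-(mass b * nrm u)) ≤ exp (-(μ * (k - 1))) := by
      rw [exp_le_exp, hk, add_sub_cancel_right]
      nlinarith [mul_le_mul_of_nonneg_right hm (Nat.cast_nonneg (nrm u) : (0 : ℝ) ≤ nrm u)]
    set T := exp (-p * log k - c * k) with hT
    have hG0 := G_nonneg hb.le u
    rw [rpow_def_of_pos hk0, ← exp_add,
      show log k * -p + -(c * k) = -p * log k - c * k by ring, ← hT]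
    have hT0 : 0 < T := exp_pos _
    have he : G b u ^ 2 ≤ 2 * exp (1 / 2 + μ) * T ^ 2 := by
      have e : exp (1 / 2 + μ) * T ^ 2 = exp (1 / 2 - 2 * p * log k) * exp (-(μ * (k - 1))) := by
        rw [hT, sq, ← exp_add, ← exp_add, ← exp_add]; congr 1; rw [hc]; ring
      rw [mul_assoc, e, sq]
      calc G b u * G b u ≤ exp (1 / 2 - 2 * p * log k) * (2 * exp (-(μ * (k - 1)))) :=
            mul_le_mul h1 (h2.trans (by linarith)) hG0 (exp_pos _).le
        _ = _ := by ring
    have h32 : exp (1 / 2 + μ) ≤ 18 := by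
      calc exp (1 / 2 + μ) ≤ exp 2 := exp_le_exp.2 (by linarith)
        _ = exp 1 * exp 1 := by rw [← exp_add]; norm_num
        _ ≤ 18 := by nlinarith [exp_one_lt_three, exp_pos 1]
    refine le_of_pow_le_pow_left₀ two_ne_zero (by positivity) (he.trans ?_)
    nlinarith [mul_le_mul_of_nonneg_right h32 (sq_nonneg T)]
  refine (Finset.sum_le_sum fun u _ => hG u).trans ?_
  rw [← Finset.sum_fiberwise_of_maps_to (g := nrm) (t := Finset.range (R + 1))
    (fun u hu => Finset.mem_range.2 (Nat.lt_succ_of_le (mem_box.1 hu)))]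
  have hterm : ∀ k ∈ Finset.range (R + 1),
      ∑ u ∈ (box R).filter (fun u => nrm u = k), 6 * (((nrm u : ℝ) + 1) ^ (-p) * exp (-(c * ((nrm u : ℝ) + 1))))
      ≤ 48 * (c ^ p * (((k : ℝ) + 1) * exp (-(c * ((k : ℝ) + 1)))) + c ^ (p - 1) * exp (-(c * ((k : ℝ) + 1)))) := by
    intro k _
    rw [Finset.sum_congr rfl (fun u hu => by rw [(Finset.mem_filter.1 hu).2] :
      ∀ u ∈ (box R).filter (fun u => nrm u = k),
        6 * (((nrm u : ℝ) + 1) ^ (-p) * exp (-(c * ((nrm u : ℝ) + 1))))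
          = 6 * (((k : ℝ) + 1) ^ (-p) * exp (-(c * ((k : ℝ) + 1))))), Finset.sum_const, nsmul_eq_mul]
    refine (mul_le_mul_of_nonneg_right (card_sphere_le _ k) (by positivity)).trans ?_
    set n : ℝ := (k : ℝ) + 1 with hn
    have hn0 : 0 < n := by positivity
    have key : n * n ^ (-p) ≤ c ^ p * n + c ^ (p - 1) := by
      rcases le_total n (1 / c) with h | h
      · refine le_trans ?_ (le_add_of_nonneg_left (by positivity))
        rw [← rpow_one_add' hn0.le (by linarith)]
        refine (rpow_le_rpow hn0.le h (by linarith)).trans_eq ?_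
        rw [one_div, inv_rpow hc0.le, ← rpow_neg hc0.le]; congr 1; ring
      · refine le_trans ?_ (le_add_of_nonneg_right (by positivity))
        rw [mul_comm]
        refine mul_le_mul_of_nonneg_right ((rpow_le_rpow_of_nonpos (by positivity) h (by linarith)).trans_eq ?_) hn0.le
        rw [one_div, inv_rpow hc0.le, ← rpow_neg hc0.le, neg_neg]
    have := mul_le_mul_of_nonneg_right key (exp_pos (-(c * n))).le
    nlinarith
  refine (Finset.sum_le_sum hterm).trans ?_
  obtain ⟨s1, s2⟩ := sum_q_le hc0 (R + 1)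
  rw [← Finset.mul_sum, Finset.sum_add_distrib, ← Finset.mul_sum, ← Finset.mul_sum]
  have t1 : c ^ p * (1 / c ^ 2) = c ^ (p - 2) := by
    rw [rpow_sub hc0, show (2 : ℝ) = ((2 : ℕ) : ℝ) by norm_num, rpow_natCast]; ring
  have t2 : c ^ (p - 1) * (1 / c) = c ^ (p - 2) := by
    rw [mul_one_div, ← rpow_sub_one hc0.ne']; congr 1; ring
  have t3 : c ^ (p - 2) ≤ 4 * μ ^ (p - 2) := by
    rw [hc, div_rpow hμ.le zero_le_two, div_eq_inv_mul, ← rpow_neg zero_le_two]
    refine mul_le_mul_of_nonneg_right ?_ (by positivity)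
    calc (2 : ℝ) ^ (-(p - 2)) ≤ 2 ^ (2 : ℝ) := rpow_le_rpow_of_exponent_le one_le_two (by linarith)
      _ = 4 := by rw [rpow_two]; norm_num
  have u1 := mul_le_mul_of_nonneg_left s2 (rpow_nonneg hc0.le p)
  have u2 := mul_le_mul_of_nonneg_left s1 (rpow_nonneg hc0.le (p - 1))
  rw [t1] at u1
  rw [t2] at u2
  linarith

/-- The mass is positive at high temperature. -/
theorem mass_pos_small {b : ℝ} (hb : 0 < b) (hb' : b < 1 / 18) : 0 < mass b := by
  refine mass_pos_of_shell hb (R := 0) ?_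
  have h : shell b 0 ≤ 9 := by
    refine (Finset.sum_le_card_nsmul _ _ 1 fun u _ => G_le_one b u).trans ?_
    rw [nsmul_eq_mul, mul_one]
    have : ((box (0 + 1)).filter fun u => 0 ≤ nrm u).card ≤ 9 := by
      refine (Finset.card_filter_le _ _).trans ?_
      simp [box, Finset.Icc_prod_def]
    exact_mod_cast this
  have := mul_le_mul_of_nonneg_left h (by linarith : (0 : ℝ) ≤ 2 * b)
  linarith

/-- Positivity of the mass is an open condition to the right. -/
theorem exists_mass_pos_right {b : ℝ} (hb : 0 < b) (hm : 0 < mass b) :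
    ∃ Δ > 0, 0 < mass (b + Δ) := by
  have hA := bdd_of_decay hb le_rfl (lt_min hm one_pos) (min_le_right _ _) (min_le_left (mass b) 1)
  set A := 384 * min (mass b) 1 ^ (pExp b - 2)
  have hA0 : 0 < A := one_pos.trans_le (hA.one_le hb.le)
  refine ⟨1 / (16 * A), by positivity, mass_pos_of_bdd (by positivity)
    (bdd_step hb.le hA (by positivity) ?_)⟩
  field_simp
  norm_num

/-- Near any zero of the mass, it is bounded by a power larger than one half of the distance. -/
theorem mass_le_power {b b₀ : ℝ} (hb : 0 < b) (hbb : b ≤ b₀) (hclose : b₀ - b < 1 / 3072)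
    (hm : 0 < mass b) (h0 : mass b₀ = 0) : mass b ≤ 3072 * (b₀ - b) ^ (1 / (2 - pExp b₀)) := by
  set p := pExp b₀ with hp
  have hp1 : p ≤ 1 / 4 := pExp_le b₀
  set μ := min (mass b) 1 with hμ
  have hμ0 : 0 < μ := lt_min hm one_pos
  have h1 := one_le_of_mass_eq_zero hb hbb (bdd_of_decay hb hbb hμ0 (min_le_right _ _) (min_le_left _ _)) h0
  rw [show (p - 2) = -(2 - p) by ring, rpow_neg hμ0.le] at h1
  have hpos : 0 < μ ^ (2 - p) := rpow_pos_of_pos hμ0 _
  have h2 : μ ^ (2 - p) ≤ 3072 * (b₀ - b) := by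
    have := mul_le_mul_of_nonneg_left h1 hpos.le
    field_simp at this
    linarith
  have hμm : μ = mass b := by
    refine min_eq_left (le_of_not_gt fun hgt => ?_)
    have : μ = 1 := min_eq_right hgt.le
    rw [this, one_rpow] at h2
    linarith
  rw [hμm] at h2
  have hν : 1 / (2 - p) ≤ 1 := by rw [div_le_one (by linarith)]; linarith
  have hν0 : 0 ≤ 1 / (2 - p) := div_nonneg zero_le_one (by linarith)
  calc mass b = (mass b ^ (2 - p)) ^ (1 / (2 - p)) := by
        rw [← rpow_mul hm.le, mul_one_div, div_self (by linarith), rpow_one]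
    _ ≤ (3072 * (b₀ - b)) ^ (1 / (2 - p)) := rpow_le_rpow (rpow_nonneg hm.le _) h2 hν0
    _ = 3072 ^ (1 / (2 - p)) * (b₀ - b) ^ (1 / (2 - p)) := mul_rpow (by norm_num) (sub_nonneg.2 hbb)
    _ ≤ 3072 * (b₀ - b) ^ (1 / (2 - p)) := by
        refine mul_le_mul_of_nonneg_right ?_ (rpow_nonneg (sub_nonneg.2 hbb) _)
        calc (3072 : ℝ) ^ (1 / (2 - p)) ≤ 3072 ^ (1 : ℝ) := rpow_le_rpow_of_exponent_le (by norm_num) hν
          _ = 3072 := rpow_one _

end Vale.Agent.P159
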