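import Vale.Agent.P159.Twist

/-!
# P159: dependence on the couplings, and relabelling of vertices
-/

open MeasureTheory Real

namespace Vale.Agent.P159

section deriv

variable {V : Type*} [Fintype V]

/-- The couplings `J + tK`. -/
def lineJ (J K : V → V → ℝ) (t : ℝ) : V → V → ℝ := fun a b => J a b + t * K a b

omit [Fintype V] in
theorem lineJ_nonneg {J K : V → V → ℝ} (hJ : ∀ a b, 0 ≤ J a b) (hK : ∀ a b, 0 ≤ K a b) {t : ℝ}
    (ht : 0 ≤ t) (a b : V) : 0 ≤ lineJ J K t a b :=
  add_nonneg (hJ a b) (mul_nonneg ht (hK a b))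

theorem ham_lineJ (J K : V → V → ℝ) (t : ℝ) (θ : V → ℝ) :
    ham (lineJ J K t) θ = ham J θ + t * ham K θ := by
  simp only [ham, lineJ, Finset.mul_sum, ← Finset.sum_add_distrib, add_mul, mul_assoc]

theorem hasDerivAt_pf (J K : V → V → ℝ) {g : (V → ℝ) → ℝ} (hg : Continuous g) {C : ℝ}
    (hC : ∀ θ, |g θ| ≤ C) (t : ℝ) :
    HasDerivAt (fun s => pf (lineJ J K s) g) (pf (lineJ J K t) fun θ => g θ * ham K θ) t := by
  simp only [pf, ham_lineJ]
  refine (hasDerivAt_integral_of_dominated_loc_of_deriv_le (μ := angles V) (x₀ := t)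
    (s := Metric.ball t 1) (bound := fun _ => C * tot K * exp (tot J + (|t| + 1) * tot K))
    (F' := fun s θ => g θ * ham K θ * exp (ham J θ + s * ham K θ))
    (Metric.ball_mem_nhds t one_pos) (Filter.Eventually.of_forall fun s => by fun_prop) ?_
    (by fun_prop) (Filter.Eventually.of_forall fun θ s hs => ?_) (integrable_const _)
    (Filter.Eventually.of_forall fun θ s _ => ?_)).2
  · have := integrable_weight (lineJ J K t) hg hC
    simpa only [ham_lineJ] using this
  · rw [Real.norm_eq_abs, abs_mul, abs_mul, abs_of_pos (exp_pos _)]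
    have h1 : |s| ≤ |t| + 1 := by
      have := abs_add_le t (s - t)
      rw [Metric.mem_ball, Real.dist_eq] at hs
      rw [add_sub_cancel] at this
      linarith
    have hC0 : 0 ≤ C := (abs_nonneg _).trans (hC θ)
    have h2 : ham J θ + s * ham K θ ≤ tot J + (|t| + 1) * tot K := by
      refine add_le_add ((le_abs_self _).trans (abs_ham_le J θ)) ((le_abs_self _).trans ?_)
      rw [abs_mul]
      exact mul_le_mul h1 (abs_ham_le K θ) (abs_nonneg _) (by positivity)
    gcongr
    · exact mul_nonneg hC0 ((abs_nonneg _).trans (abs_ham_le K θ))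
    · exact hC θ
    · exact abs_ham_le K θ
  · have := ((hasDerivAt_mul_const (ham K θ) (x := s)).const_add (ham J θ)).exp.const_mul (g θ)
    refine this.congr_deriv ?_
    ring

variable [DecidableEq V]

/-- The derivative of a correlation along a line of couplings. -/
theorem hasDerivAt_corr (J K : V → V → ℝ) (a x : V) (t : ℝ) :
    HasDerivAt (fun s => corr (lineJ J K s) a x)
      (∑ e : V × V, K e.1 e.2 * cov (lineJ J K t) a x e.1 e.2) t := by
  set L := lineJ J K t
  have hb : ∀ θ : V → ℝ, |cos (θ a - θ x)| ≤ 1 := fun θ => abs_cos_le_one _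
  have h1 := hasDerivAt_pf J K (g := fun θ => cos (θ a - θ x)) (by fun_prop) hb t
  have h2 := hasDerivAt_pf J K (g := fun _ => (1 : ℝ)) continuous_const (C := 1) (by simp) t
  have hne := (pf_one_pos L).ne'
  refine (h1.div h2 hne).congr_deriv ?_
  have lin : ∀ (g : (V → ℝ) → ℝ), Continuous g → (∀ θ, |g θ| ≤ 1) →
      pf L (fun θ => g θ * ham K θ) = ∑ e : V × V, K e.1 e.2 * pf L (fun θ => g θ * cos (θ e.1 - θ e.2)) := by
    intro g hg hg1
    simp only [pf, ← integral_const_mul]
    rw [← integral_finsetSum _ fun e _ => (integrable_weight L (by fun_prop) (C := 1) fun θ => by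
      rw [abs_mul]; exact mul_le_one₀ (hg1 θ) (abs_nonneg _) (abs_cos_le_one _)).const_mul _]
    refine integral_congr_ae (Filter.Eventually.of_forall fun θ => ?_)
    simp only [ham, Finset.mul_sum, Finset.sum_mul]
    exact Finset.sum_congr rfl fun e _ => by ring
  rw [show lineJ J K t = L from rfl, lin _ (by fun_prop) hb, lin _ continuous_const (fun _ => by simp)]
  simp only [one_mul, cov, corr, avg, Finset.sum_mul, Finset.mul_sum, ← Finset.sum_sub_distrib,
    Finset.sum_div]
  refine Finset.sum_congr rfl fun e _ => ?_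
  field_simp

/-- Ginibre monotonicity along a line. -/
theorem corr_lineJ_mono {J K : V → V → ℝ} (hJ : ∀ a b, 0 ≤ J a b) (hK : ∀ a b, 0 ≤ K a b) (a x : V) :
    MonotoneOn (fun s => corr (lineJ J K s) a x) (Set.Ici 0) := by
  refine monotoneOn_of_deriv_nonneg (convex_Ici 0)
    (fun s _ => (hasDerivAt_corr J K a x s).continuousAt.continuousWithinAt)
    (fun s _ => (hasDerivAt_corr J K a x s).differentiableAt.differentiableWithinAt) fun s hs => ?_
  rw [(hasDerivAt_corr J K a x s).deriv]
  rw [interior_Ici] at hs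
  exact Finset.sum_nonneg fun e _ =>
    mul_nonneg (hK _ _) (cov_bounds (lineJ_nonneg hJ hK (le_of_lt hs)) a x _ _).1

/-- Ginibre monotonicity in the couplings. -/
theorem corr_mono {J J' : V → V → ℝ} (hJ : ∀ a b, 0 ≤ J a b) (h : ∀ a b, J a b ≤ J' a b) (a x : V) :
    corr J a x ≤ corr J' a x := by
  have h1 := corr_lineJ_mono hJ (K := fun p q => J' p q - J p q) (fun p q => sub_nonneg.2 (h p q)) a x
    (Set.self_mem_Ici) (Set.mem_Ici.2 zero_le_one) zero_le_one
  have e0 : lineJ J (fun p q => J' p q - J p q) 0 = J := by funext p q; simp [lineJ]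
  have e1 : lineJ J (fun p q => J' p q - J p q) 1 = J' := by funext p q; simp [lineJ]
  simpa only [e0, e1] using h1

/-- A bound on the increase between two couplings, from a bound on the derivative. -/
theorem corr_sub_le {J J' : V → V → ℝ} (a x : V) {C : ℝ}
    (hC : ∀ t ∈ Set.Ioo (0 : ℝ) 1, ∑ e : V × V, (J' e.1 e.2 - J e.1 e.2) *
      cov (lineJ J (fun p q => J' p q - J p q) t) a x e.1 e.2 ≤ C) :
    corr J' a x - corr J a x ≤ C := by
  set K := fun p q => J' p q - J p q
  have e0 : lineJ J K 0 = J := by funext p q; simp [lineJ, K]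
  have e1 : lineJ J K 1 = J' := by funext p q; simp [lineJ, K]
  have := (convex_Icc (0 : ℝ) 1).image_sub_le_mul_sub_of_deriv_le
    (f := fun s => corr (lineJ J K s) a x)
    (fun s _ => (hasDerivAt_corr J K a x s).continuousAt.continuousWithinAt)
    (fun s _ => (hasDerivAt_corr J K a x s).differentiableAt.differentiableWithinAt) (C := C)
    (fun s hs => by
      rw [(hasDerivAt_corr J K a x s).deriv]
      rw [interior_Icc] at hs
      exact hC s hs) 0 (Set.left_mem_Icc.2 zero_le_one) 1 (Set.right_mem_Icc.2 zero_le_one) zero_le_one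
  simpa only [e0, e1, sub_zero, mul_one] using this

end deriv

section transfer

variable {V W : Type*} [Fintype V] [Fintype W] {j : V → W}

theorem map_angles (hj : Function.Injective j) :
    (angles W).map (fun θ : W → ℝ => θ ∘ j) = angles V := by
  refine (Measure.pi_eq fun s hs => ?_).symm
  have hm : Measurable fun θ : W → ℝ => θ ∘ j := measurable_pi_lambda _ fun i => measurable_pi_apply (j i)
  rw [Measure.map_apply hm (MeasurableSet.univ_pi hs)]
  have e : (fun θ : W → ℝ => θ ∘ j) ⁻¹' Set.univ.pi s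
      = Set.univ.pi (Function.extend j s fun _ => Set.univ) := by
    ext θ
    simp only [Set.mem_preimage, Set.mem_univ_pi, Function.comp_apply]
    constructor
    · intro h w
      by_cases hw : ∃ i, j i = w
      · obtain ⟨i, rfl⟩ := hw
        rw [hj.extend_apply]; exact h i
      · rw [Function.extend_apply' _ _ _ hw]; trivial
    · intro h i
      have := h (j i)
      rwa [hj.extend_apply] at this
  rw [e, angles, Measure.pi_pi]
  rw [← Finset.prod_subset (Finset.subset_univ (Finset.univ.map ⟨j, hj⟩)) fun w _ hw => ?_,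
    Finset.prod_map]
  · simp only [Function.Embedding.coeFn_mk, hj.extend_apply]
  · have hnr : ¬∃ i, j i = w := fun ⟨i, hi⟩ => hw (Finset.mem_map.2 ⟨i, Finset.mem_univ _, hi⟩)
    rw [Function.extend_apply' _ _ _ hnr, measure_univ]

theorem ham_comp (hj : Function.Injective j) {J : V → V → ℝ} {J' : W → W → ℝ}
    (hval : ∀ a b, J' (j a) (j b) = J a b)
    (hsupp : ∀ p q, J' p q ≠ 0 → p ∈ Set.range j ∧ q ∈ Set.range j) (θ : W → ℝ) :
    ham J' θ = ham J (θ ∘ j) := by
  refine (Fintype.sum_of_injective (Prod.map j j) (hj.prodMap hj) _ _ (fun e he => ?_) fun e => ?_).symm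
  · by_contra h
    obtain ⟨⟨a, ha⟩, b, hb⟩ := hsupp e.1 e.2 fun h0 => h (by rw [h0, zero_mul])
    exact he ⟨(a, b), Prod.ext ha hb⟩
  · simp [hval]

theorem pf_comp (hj : Function.Injective j) {J : V → V → ℝ} {J' : W → W → ℝ}
    (hval : ∀ a b, J' (j a) (j b) = J a b)
    (hsupp : ∀ p q, J' p q ≠ 0 → p ∈ Set.range j ∧ q ∈ Set.range j) {g : (V → ℝ) → ℝ} (hg : Continuous g) :
    pf J' (fun θ => g (θ ∘ j)) = pf J g := by
  simp only [pf, ham_comp hj hval hsupp]
  have hm : Measurable fun θ : W → ℝ => θ ∘ j := measurable_pi_lambda _ fun i => measurable_pi_apply (j i)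
  rw [← map_angles hj, integral_map hm.aemeasurable (by fun_prop)]

/-- Vertices carrying no bond do not change the correlations. -/
theorem corr_comp (hj : Function.Injective j) {J : V → V → ℝ} {J' : W → W → ℝ}
    (hval : ∀ a b, J' (j a) (j b) = J a b)
    (hsupp : ∀ p q, J' p q ≠ 0 → p ∈ Set.range j ∧ q ∈ Set.range j) (a b : V) :
    corr J' (j a) (j b) = corr J a b := by
  have h1 := pf_comp hj hval hsupp (g := fun θ : V → ℝ => cos (θ a - θ b)) (by fun_prop)
  have h2 := pf_comp hj hval hsupp (g := fun _ : V → ℝ => (1 : ℝ)) continuous_const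
  simp only [Function.comp_apply] at h1
  simp only [corr, avg, h1, h2]

end transfer

end Vale.Agent.P159
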