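import Vale.Agent.P159.Pairing

/-!
# P159: finite XY models, the pair series, and correlation inequalities
-/

open MeasureTheory Real

namespace Vale.Agent.P159

/-- The uniform law of one angle. -/
noncomputable def angle : Measure ℝ :=
  (ENNReal.ofReal (2 * π))⁻¹ • volume.restrict (Set.Ioc 0 (2 * π))

instance : IsProbabilityMeasure angle := by
  constructor
  rw [angle, Measure.smul_apply, Measure.restrict_apply_univ, Real.volume_Ioc, smul_eq_mul, sub_zero,
    ENNReal.inv_mul_cancel (by positivity) ENNReal.ofReal_ne_top]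

variable {V : Type*} [Fintype V]

/-- Independent uniform angles. -/
noncomputable def angles (V : Type*) [Fintype V] : Measure (V → ℝ) := Measure.pi fun _ => angle

instance : IsProbabilityMeasure (angles V) := by unfold angles; infer_instance

/-- `∑ J(a,b) cos(θ_a - θ_b)`. -/
noncomputable def ham (J : V → V → ℝ) (θ : V → ℝ) : ℝ :=
  ∑ e : V × V, J e.1 e.2 * cos (θ e.1 - θ e.2)

/-- The weighted integral of an observable. -/
noncomputable def pf (J : V → V → ℝ) (g : (V → ℝ) → ℝ) : ℝ := ∫ θ, g θ * exp (ham J θ) ∂angles V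

/-- The Gibbs average. -/
noncomputable def avg (J : V → V → ℝ) (g : (V → ℝ) → ℝ) : ℝ := pf J g / pf J fun _ => 1

/-- The two-point function. -/
noncomputable def corr (J : V → V → ℝ) (a b : V) : ℝ := avg J fun θ => cos (θ a - θ b)

/-- `∑ D_z θ_z`. -/
def dot (D : V → ℤ) (θ : V → ℝ) : ℝ := ∑ z, (D z : ℝ) * θ z

/-- The total coupling. -/
def tot (J : V → V → ℝ) : ℝ := ∑ e : V × V, |J e.1 e.2|

theorem abs_ham_le (J : V → V → ℝ) (θ : V → ℝ) : |ham J θ| ≤ tot J := by
  refine (Finset.abs_sum_le_sum_abs _ _).trans (Finset.sum_le_sum fun e _ => ?_)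
  rw [abs_mul]
  exact mul_le_of_le_one_right (abs_nonneg _) (abs_cos_le_one _)

@[fun_prop]
theorem continuous_ham (J : V → V → ℝ) : Continuous (ham J) := by unfold ham; fun_prop

@[fun_prop]
theorem continuous_dot (D : V → ℤ) : Continuous (dot D) := by unfold dot; fun_prop

theorem integrable_of_bdd {g : (V → ℝ) → ℝ} (hg : Continuous g) {C : ℝ} (hC : ∀ θ, |g θ| ≤ C) :
    Integrable g (angles V) :=
  Integrable.of_bound hg.measurable.aestronglyMeasurable C
    (Filter.Eventually.of_forall fun θ => by rw [Real.norm_eq_abs]; exact hC θ)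

theorem abs_weight_le (J : V → V → ℝ) {g : (V → ℝ) → ℝ} {C : ℝ} (hC : ∀ θ, |g θ| ≤ C) (θ : V → ℝ) :
    |g θ * exp (ham J θ)| ≤ C * exp (tot J) := by
  rw [abs_mul, abs_of_pos (exp_pos _)]
  exact mul_le_mul (hC θ) (exp_le_exp.2 ((le_abs_self _).trans (abs_ham_le J θ))) (exp_pos _).le
    ((abs_nonneg _).trans (hC θ))

theorem integrable_weight (J : V → V → ℝ) {g : (V → ℝ) → ℝ} (hg : Continuous g) {C : ℝ}
    (hC : ∀ θ, |g θ| ≤ C) : Integrable (fun θ => g θ * exp (ham J θ)) (angles V) :=
  integrable_of_bdd (hg.mul (continuous_exp.comp (continuous_ham J))) (abs_weight_le J hC)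

theorem pf_one_pos (J : V → V → ℝ) : 0 < pf J fun _ => 1 := by
  have h : exp (-tot J) ≤ pf J fun _ => 1 := by
    have := integral_mono (integrable_const (exp (-tot J)))
      (integrable_weight J continuous_const (g := fun _ => (1 : ℝ)) (C := 1) (by simp))
      (fun θ => by
        simp only [one_mul, exp_le_exp]
        exact (abs_le.1 (abs_ham_le J θ)).1)
    simpa [pf] using this
  exact (exp_pos _).trans_le h

theorem corr_le_one (J : V → V → ℝ) (a b : V) : corr J a b ≤ 1 := by
  rw [corr, avg, div_le_one (pf_one_pos J)]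
  refine integral_mono (integrable_weight J (by fun_prop) (C := 1) fun θ => abs_cos_le_one _)
    (integrable_weight J continuous_const (C := 1) (by simp)) fun θ => ?_
  exact mul_le_mul_of_nonneg_right (cos_le_one _) (exp_pos _).le

theorem corr_self (J : V → V → ℝ) (a : V) : corr J a a = 1 := by
  simp only [corr, avg, sub_self, cos_zero]
  exact div_self (pf_one_pos J).ne'

theorem corr_comm (J : V → V → ℝ) (a b : V) : corr J a b = corr J b a := by
  simp only [corr]
  congr 1
  funext θ
  rw [← cos_neg, neg_sub]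

variable [DecidableEq V]

omit [DecidableEq V] in
theorem dot_add (D E : V → ℤ) (θ : V → ℝ) : dot (D + E) θ = dot D θ + dot E θ := by
  simp only [dot, Pi.add_apply, Int.cast_add, add_mul, Finset.sum_add_distrib]

omit [DecidableEq V] in
theorem dot_sub (D E : V → ℤ) (θ : V → ℝ) : dot (D - E) θ = dot D θ - dot E θ := by
  simp only [dot, Pi.sub_apply, Int.cast_sub, sub_mul, Finset.sum_sub_distrib]

omit [DecidableEq V] in
theorem dot_neg (D : V → ℤ) (θ : V → ℝ) : dot (-D) θ = -dot D θ := by
  simp only [dot, Pi.neg_apply, Int.cast_neg, neg_mul, Finset.sum_neg_distrib]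

theorem dot_pt (a : V) (θ : V → ℝ) : dot (pt a) θ = θ a := by
  simp [dot, pt]

theorem dot_pt_sub (a b : V) (θ : V → ℝ) : dot (pt a - pt b) θ = θ a - θ b := by
  rw [dot_sub, dot_pt, dot_pt]

omit [DecidableEq V] in
theorem dot_zero (θ : V → ℝ) : dot (0 : V → ℤ) θ = 0 := by simp [dot]

/-- The Fourier coefficient of the Boltzmann weight. -/
noncomputable def zc (J : V → V → ℝ) (D : V → ℤ) : ℝ := pf J fun θ => cos (dot D θ)

omit [DecidableEq V] in
theorem zc_zero (J : V → V → ℝ) : zc J 0 = pf J fun _ => 1 := by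
  simp [zc, dot_zero]

theorem corr_eq (J : V → V → ℝ) (a b : V) : corr J a b = zc J (pt a - pt b) / zc J 0 := by
  simp only [corr, avg, zc_zero]
  simp only [zc, dot_pt_sub]

theorem character_angle (n : ℤ) :
    ∫ x, Complex.exp (((n : ℝ) * x : ℝ) * Complex.I) ∂angle = if n = 0 then 1 else 0 := by
  have hpi : (0 : ℝ) < 2 * π := by positivity
  rw [angle, integral_smul_measure, ← intervalIntegral.integral_of_le hpi.le, ENNReal.toReal_inv,
    ENNReal.toReal_ofReal hpi.le]
  by_cases hn : n = 0
  · simp [hn]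
    field_simp
  · rw [if_neg hn]
    have hc : ((n : ℂ) * Complex.I) ≠ 0 := mul_ne_zero (by exact_mod_cast hn) Complex.I_ne_zero
    have e : ∀ x : ℝ, Complex.exp (((n : ℝ) * x : ℝ) * Complex.I) = Complex.exp ((n : ℂ) * Complex.I * x) :=
      fun x => by push_cast; ring_nf
    simp only [e]
    rw [integral_exp_mul_complex hc,
      show ((n : ℂ) * Complex.I * ((2 * π : ℝ) : ℂ)) = n * (2 * π * Complex.I) by push_cast; ring,
      Complex.exp_int_mul_two_pi_mul_I]
    simp

omit [DecidableEq V] in
theorem character (D : V → ℤ) :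
    ∫ θ, Complex.exp ((dot D θ : ℂ) * Complex.I) ∂angles V = if D = 0 then 1 else 0 := by
  have e : ∀ θ : V → ℝ, Complex.exp ((dot D θ : ℂ) * Complex.I)
      = ∏ z, Complex.exp ((((D z : ℤ) : ℝ) * θ z : ℝ) * Complex.I) := fun θ => by
    rw [← Complex.exp_sum, dot, Complex.ofReal_sum, Finset.sum_mul]
  simp only [e]
  rw [angles, integral_fintype_prod_eq_prod (𝕜 := ℂ)
    (f := fun z (x : ℝ) => Complex.exp ((((D z : ℤ) : ℝ) * x : ℝ) * Complex.I))]
  simp only [character_angle]
  by_cases hD : D = 0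
  · simp [hD]
  · rw [if_neg hD]
    obtain ⟨z, hz⟩ := Function.ne_iff.1 hD
    exact Finset.prod_eq_zero (Finset.mem_univ z) (if_neg hz)

/-- The weight of a word of edges. -/
noncomputable def wt {k : ℕ} (J : V → V → ℝ) (w : Fin k → V × V) : ℝ :=
  (∏ j, J (w j).1 (w j).2) * (1 / 2) ^ k

omit [Fintype V] [DecidableEq V] in
theorem wt_nonneg {k : ℕ} {J : V → V → ℝ} (hJ : ∀ a b, 0 ≤ J a b) (w : Fin k → V × V) : 0 ≤ wt J w :=
  mul_nonneg (Finset.prod_nonneg fun j _ => hJ _ _) (by positivity)

/-- The half sum and half difference of two signs. -/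
def halfAdd (q : Bool × Bool) : ℤ := if q.1 = q.2 then sgn q.1 else 0

/-- The half difference of two signs. -/
def halfSub (q : Bool × Bool) : ℤ := if q.1 = q.2 then 0 else sgn q.1

theorem half_add_sub (q : Bool × Bool) :
    halfAdd q + halfSub q = sgn q.1 ∧ halfAdd q - halfSub q = sgn q.2 := by
  obtain ⟨a, b⟩ := q
  cases a <;> cases b <;> simp [halfAdd, halfSub, sgn]

theorem sum_half_exp (x y : ℝ) :
    ∑ q : Bool × Bool, Complex.exp (((halfAdd q : ℝ) * x + (halfSub q : ℝ) * y : ℝ) * Complex.I)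
      = 2 * ((cos x + cos y : ℝ) : ℂ) := by
  simp [Fintype.sum_prod_type, halfAdd, halfSub, sgn, Complex.ofReal_cos, Complex.cos]
  ring

theorem two_cos (x : ℝ) :
    ∑ b : Bool, Complex.exp (((sgn b : ℝ) * x : ℝ) * Complex.I) = 2 * (cos x : ℂ) := by
  simp [sgn, Complex.ofReal_cos, Complex.cos]
  ring

/-- The charge of a word with integer multiplicities. -/
def charge {k : ℕ} (w : Fin k → V × V) (c : Fin k → ℤ) : V → ℤ := fun z =>
  ∑ j, c j * (pt (w j).1 z - pt (w j).2 z)

theorem dot_charge {k : ℕ} (w : Fin k → V × V) (c : Fin k → ℤ) (θ : V → ℝ) :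
    dot (charge w c) θ = ∑ j, (c j : ℝ) * (θ (w j).1 - θ (w j).2) := by
  simp only [dot, charge, Int.cast_sum, Int.cast_mul, Int.cast_sub, Finset.sum_mul]
  rw [Finset.sum_comm]
  refine Finset.sum_congr rfl fun j _ => ?_
  simp only [mul_assoc, ← Finset.mul_sum, sub_mul, Finset.sum_sub_distrib]
  rw [← dot_pt (w j).1 θ, ← dot_pt (w j).2 θ]
  simp only [dot]

omit [Fintype V] in
theorem flow_eq_charge {k : ℕ} (w : Fin k → V × V) (σ : Fin k → Bool) :
    flow (fun j => (w j).1) (fun j => (w j).2) σ = charge w fun j => sgn (σ j) := rfl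

omit [Fintype V] in
theorem half_iff {k : ℕ} (w : Fin k → V × V) (q : Fin k → Bool × Bool) (A B : V → ℤ) :
    (A + charge w (fun j => halfAdd (q j)) = 0 ∧ B + charge w (fun j => halfSub (q j)) = 0) ↔
      (flow (fun j => (w j).1) (fun j => (w j).2) (fun j => (q j).1) = -(A + B) ∧
        flow (fun j => (w j).1) (fun j => (w j).2) (fun j => (q j).2) = -(A - B)) := by
  rw [flow_eq_charge, flow_eq_charge]
  have h1 : charge w (fun j => sgn (q j).1)
      = charge w (fun j => halfAdd (q j)) + charge w fun j => halfSub (q j) := by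
    funext z
    simp only [charge, Pi.add_apply, ← Finset.sum_add_distrib, ← add_mul, (half_add_sub (q _)).1]
  have h2 : charge w (fun j => sgn (q j).2)
      = charge w (fun j => halfAdd (q j)) - charge w fun j => halfSub (q j) := by
    funext z
    simp only [charge, Pi.sub_apply, ← Finset.sum_sub_distrib, ← sub_mul, (half_add_sub (q _)).2]
  rw [h1, h2]
  constructor
  · rintro ⟨hA, hB⟩
    constructor <;> funext z <;>
      have a := congrFun hA z <;> have b := congrFun hB z <;>
      simp only [Pi.add_apply, Pi.sub_apply, Pi.neg_apply, Pi.zero_apply] at a b ⊢ <;> omega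
  · rintro ⟨h1, h2⟩
    constructor <;> funext z <;>
      have a := congrFun h1 z <;> have b := congrFun h2 z <;>
      simp only [Pi.add_apply, Pi.sub_apply, Pi.neg_apply, Pi.zero_apply] at a b ⊢ <;> omega

/-- One term of the pair expansion. -/
theorem pair_word {k : ℕ} (w : Fin k → V × V) (D D' : V → ℤ) :
    ∫ p : (V → ℝ) × (V → ℝ), (cos (dot D p.1) * cos (dot D' p.2)) *
        ∏ j, (cos (p.1 (w j).1 - p.1 (w j).2) + cos (p.2 (w j).1 - p.2 (w j).2))
      ∂((angles V).prod (angles V))
    = (1 / 2) ^ k * (cnt (fun j => (w j).1) (fun j => (w j).2) (D + D') *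
        cnt (fun j => (w j).1) (fun j => (w j).2) (D - D')) := by
  set u := fun j => (w j).1
  set v := fun j => (w j).2
  apply Complex.ofReal_injective
  rw [← integral_complex_ofReal]
  have e : ∀ p : (V → ℝ) × (V → ℝ), (((cos (dot D p.1) * cos (dot D' p.2)) *
        ∏ j, (cos (p.1 (w j).1 - p.1 (w j).2) + cos (p.2 (w j).1 - p.2 (w j).2)) : ℝ) : ℂ)
      = (1 / 4) * (1 / 2) ^ k * ∑ ε : Bool × Bool, ∑ q : Fin k → Bool × Bool,
          Complex.exp ((dot (sgn ε.1 • D + charge w fun j => halfAdd (q j)) p.1 : ℂ) * Complex.I) *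
          Complex.exp ((dot (sgn ε.2 • D' + charge w fun j => halfSub (q j)) p.2 : ℂ) * Complex.I) := by
    intro p
    have hs : ∀ (b : Bool) (D : V → ℤ) (θ : V → ℝ), dot (sgn b • D) θ = (sgn b : ℝ) * dot D θ := by
      intro b D θ
      simp only [dot, Pi.smul_apply, smul_eq_mul, Int.cast_mul, Finset.mul_sum, mul_assoc]
    have hL : ∀ (ε : Bool × Bool) (q : Fin k → Bool × Bool),
        Complex.exp ((dot (sgn ε.1 • D + charge w fun j => halfAdd (q j)) p.1 : ℂ) * Complex.I) *
          Complex.exp ((dot (sgn ε.2 • D' + charge w fun j => halfSub (q j)) p.2 : ℂ) * Complex.I)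
        = Complex.exp (((sgn ε.1 : ℝ) * dot D p.1 : ℝ) * Complex.I) *
          Complex.exp (((sgn ε.2 : ℝ) * dot D' p.2 : ℝ) * Complex.I) *
          ∏ j, Complex.exp ((((halfAdd (q j) : ℤ) : ℝ) * (p.1 (w j).1 - p.1 (w j).2)
            + ((halfSub (q j) : ℤ) : ℝ) * (p.2 (w j).1 - p.2 (w j).2) : ℝ) * Complex.I) := by
      intro ε q
      rw [← Complex.exp_sum, ← Complex.exp_add, ← Complex.exp_add, ← Complex.exp_add]
      congr 1
      simp only [dot_add, hs, dot_charge, ← Finset.sum_mul, ← add_mul]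
      congr 1
      push_cast [Finset.sum_add_distrib]
      ring
    simp only [hL, ← Finset.mul_sum, ← Finset.sum_mul]
    rw [← Fintype.prod_sum (fun j (q : Bool × Bool) => Complex.exp
      (((halfAdd q : ℝ) * (p.1 (w j).1 - p.1 (w j).2) + (halfSub q : ℝ) * (p.2 (w j).1 - p.2 (w j).2) : ℝ)
        * Complex.I)), Fintype.sum_prod_type]
    simp only [← Finset.mul_sum, ← Finset.sum_mul, two_cos, sum_half_exp, Finset.prod_mul_distrib,
      Finset.prod_const, Finset.card_univ, Fintype.card_fin]
    push_cast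
    rw [div_pow, one_pow]
    field_simp
    ring
  simp only [e]
  rw [integral_const_mul]
  have hint : ∀ (A B : V → ℤ), Integrable (fun p : (V → ℝ) × (V → ℝ) =>
      Complex.exp ((dot A p.1 : ℂ) * Complex.I) * Complex.exp ((dot B p.2 : ℂ) * Complex.I))
      ((angles V).prod (angles V)) := fun A B =>
    Integrable.of_bound (by fun_prop) 1 (Filter.Eventually.of_forall fun p => by
      rw [norm_mul, Complex.norm_exp_ofReal_mul_I, Complex.norm_exp_ofReal_mul_I, mul_one])
  rw [integral_finsetSum _ fun ε _ => integrable_finsetSum _ fun q _ => hint _ _]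
  simp only [integral_finsetSum _ fun q _ => hint _ _]
  have hcnt : ∀ ε : Bool × Bool,
      (∑ q : Fin k → Bool × Bool, ∫ p : (V → ℝ) × (V → ℝ),
        Complex.exp ((dot (sgn ε.1 • D + charge w fun j => halfAdd (q j)) p.1 : ℂ) * Complex.I) *
          Complex.exp ((dot (sgn ε.2 • D' + charge w fun j => halfSub (q j)) p.2 : ℂ) * Complex.I)
          ∂((angles V).prod (angles V)))
      = ((cnt u v (-(sgn ε.1 • D + sgn ε.2 • D')) * cnt u v (-(sgn ε.1 • D - sgn ε.2 • D')) : ℝ) : ℂ) := by
    intro ε
    rw [cnt, cnt, Finset.sum_mul_sum, ← Fintype.sum_prod_type']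
    push_cast
    refine Fintype.sum_equiv (Equiv.arrowProdEquivProdArrow (Fin k) (fun _ => Bool) (fun _ => Bool)) _ _
      fun q => ?_
    rw [integral_prod_mul (fun θ : V → ℝ => Complex.exp ((dot _ θ : ℂ) * Complex.I))
      (fun θ : V → ℝ => Complex.exp ((dot _ θ : ℂ) * Complex.I)), character, character]
    have hiff := half_iff w q (sgn ε.1 • D) (sgn ε.2 • D')
    simp only [Equiv.arrowProdEquivProdArrow_apply, ind]
    by_cases h1 : sgn ε.1 • D + (charge w fun j => halfAdd (q j)) = 0 <;>
      by_cases h2 : sgn ε.2 • D' + (charge w fun j => halfSub (q j)) = 0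
    · rw [if_pos h1, if_pos h2, if_pos (hiff.1 ⟨h1, h2⟩).1, if_pos (hiff.1 ⟨h1, h2⟩).2]
      simp
    all_goals
      have hne : ¬(flow u v (fun j => (q j).1) = -(sgn ε.1 • D + sgn ε.2 • D') ∧
          flow u v (fun j => (q j).2) = -(sgn ε.1 • D - sgn ε.2 • D')) := fun h => by
        obtain ⟨g1, g2⟩ := hiff.2 h
        first | exact h1 g1 | exact h2 g2
      rcases not_and_or.1 hne with h | h
      all_goals
        rw [if_neg h]
        first | rw [if_neg h1] | rw [if_neg h2]
        simp
  simp only [hcnt]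
  simp only [Fintype.sum_prod_type, Fintype.sum_bool, sgn, if_true, Bool.false_eq_true, if_false,
    one_smul, neg_smul, cnt_neg]
  have e1 : cnt u v (-D + -D') = cnt u v (D + D') := by rw [← cnt_neg, neg_add, neg_neg, neg_neg]
  have e2 : cnt u v (-D - -D') = cnt u v (D - D') := by
    rw [← cnt_neg]; congr 1; abel
  have e3 : cnt u v (D + -D') = cnt u v (D - D') := by rw [sub_eq_add_neg]
  have e4 : cnt u v (D - -D') = cnt u v (D + D') := by rw [sub_neg_eq_add]
  have e5 : cnt u v (-D + D') = cnt u v (D - D') := by rw [← cnt_neg]; congr 1; abel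
  have e6 : cnt u v (-D - D') = cnt u v (D + D') := by rw [← cnt_neg]; congr 1; abel
  rw [e1, e2, e3, e4, e5, e6]
  push_cast
  ring

/-- The `k`-th term of the pair series. -/
noncomputable def pairTerm (J : V → V → ℝ) (D D' : V → ℤ) (k : ℕ) : ℝ :=
  (∑ w : Fin k → V × V, wt J w * (cnt (fun j => (w j).1) (fun j => (w j).2) (D + D') *
    cnt (fun j => (w j).1) (fun j => (w j).2) (D - D'))) / k.factorial

theorem hasSum_pair (J : V → V → ℝ) (D D' : V → ℤ) :
    HasSum (pairTerm J D D') (zc J D * zc J D') := by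
  set μ := (angles V).prod (angles V)
  set F : ℕ → (V → ℝ) × (V → ℝ) → ℝ := fun k p =>
    (cos (dot D p.1) * cos (dot D' p.2)) * ((ham J p.1 + ham J p.2) ^ k / k.factorial)
  have hb : ∀ k p, ‖F k p‖ ≤ (2 * tot J) ^ k / k.factorial := by
    intro k p
    rw [Real.norm_eq_abs, abs_mul, abs_div, abs_pow, Nat.abs_cast]
    refine mul_le_of_le_one_left (by positivity) ?_ |>.trans ?_
    · rw [abs_mul]; exact mul_le_one₀ (abs_cos_le_one _) (abs_nonneg _) (abs_cos_le_one _)
    · gcongr
      exact (abs_add_le _ _).trans (by linarith [abs_ham_le J p.1, abs_ham_le J p.2])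
  have h := hasSum_integral_of_dominated_convergence (μ := μ) (F := F)
    (f := fun p => (cos (dot D p.1) * exp (ham J p.1)) * (cos (dot D' p.2) * exp (ham J p.2)))
    (fun k _ => (2 * tot J) ^ k / k.factorial)
    (fun k => by fun_prop)
    (fun k => Filter.Eventually.of_forall (hb k))
    (Filter.Eventually.of_forall fun _ => Real.summable_pow_div_factorial _)
    (integrable_const _)
    (Filter.Eventually.of_forall fun p => by
      have := (NormedSpace.expSeries_div_hasSum_exp (ham J p.1 + ham J p.2)).mul_left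
        (cos (dot D p.1) * cos (dot D' p.2))
      rw [← Real.exp_eq_exp_ℝ, exp_add] at this
      exact mul_mul_mul_comm (cos (dot D p.1)) (cos (dot D' p.2)) _ _ ▸ this)
  rw [integral_prod_mul (fun θ => cos (dot D θ) * exp (ham J θ))
    (fun θ => cos (dot D' θ) * exp (ham J θ))] at h
  refine h.congr_fun fun k => ?_
  have e : ∀ p : (V → ℝ) × (V → ℝ), F k p = (∑ w : Fin k → V × V, (∏ j, J (w j).1 (w j).2) *
      ((cos (dot D p.1) * cos (dot D' p.2)) *
        ∏ j, (cos (p.1 (w j).1 - p.1 (w j).2) + cos (p.2 (w j).1 - p.2 (w j).2)))) / k.factorial := by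
    intro p
    simp only [F, ham, ← Finset.sum_add_distrib, ← mul_add, Fintype.sum_pow, Finset.prod_mul_distrib]
    rw [mul_div_assoc', Finset.mul_sum]
    congr 1
    exact Finset.sum_congr rfl fun w _ => by ring
  simp only [e]
  rw [integral_div, integral_finsetSum _ fun w _ => ?_, pairTerm]
  · congr 1
    refine Finset.sum_congr rfl fun w _ => ?_
    rw [integral_const_mul, pair_word, wt]
    ring
  · refine Integrable.of_bound (by fun_prop) (|∏ j, J (w j).1 (w j).2| * 2 ^ k)
      (Filter.Eventually.of_forall fun p => ?_)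
    rw [Real.norm_eq_abs, abs_mul]
    refine mul_le_mul_of_nonneg_left ?_ (abs_nonneg _)
    rw [abs_mul, abs_mul, Finset.abs_prod]
    refine le_trans (mul_le_of_le_one_left (Finset.prod_nonneg fun _ _ => abs_nonneg _)
      (mul_le_one₀ (abs_cos_le_one _) (abs_nonneg _) (abs_cos_le_one _))) ?_
    refine le_trans (Finset.prod_le_prod (fun _ _ => abs_nonneg _) fun j _ =>
      (abs_add_le _ _).trans (add_le_add (abs_cos_le_one _) (abs_cos_le_one _))) ?_
    norm_num

theorem zc_zero_pos (J : V → V → ℝ) : 0 < zc J 0 := by rw [zc_zero]; exact pf_one_pos J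

theorem zc_nonneg {J : V → V → ℝ} (hJ : ∀ a b, 0 ≤ J a b) (D : V → ℤ) : 0 ≤ zc J D := by
  have h := hasSum_pair J D 0
  have h0 : 0 ≤ zc J D * zc J 0 := h.nonneg fun k => div_nonneg (Finset.sum_nonneg fun w _ => by
    rw [add_zero, sub_zero]
    exact mul_nonneg (wt_nonneg hJ w) (mul_self_nonneg _)) (Nat.cast_nonneg _)
  exact nonneg_of_mul_nonneg_left h0 (zc_zero_pos J)

theorem corr_nonneg {J : V → V → ℝ} (hJ : ∀ a b, 0 ≤ J a b) (a b : V) : 0 ≤ corr J a b := by
  rw [corr_eq]; exact div_nonneg (zc_nonneg hJ _) (zc_zero_pos J).le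

/-- Supermultiplicativity up to a factor two. -/
theorem corr_mul_le {J : V → V → ℝ} (hJ : ∀ a b, 0 ≤ J a b) (x y z : V) :
    corr J x y * corr J y z ≤ 2 * corr J x z := by
  have h1 := hasSum_pair J (pt x - pt y) (pt y - pt z)
  have h2 := (hasSum_pair J (pt x - pt z) 0).mul_left 2
  have h : zc J (pt x - pt y) * zc J (pt y - pt z) ≤ 2 * (zc J (pt x - pt z) * zc J 0) := by
    refine hasSum_le (fun k => ?_) h1 h2
    rw [pairTerm, pairTerm, mul_div_assoc', Finset.mul_sum]
    refine div_le_div_of_nonneg_right (Finset.sum_le_sum fun w _ => ?_) (Nat.cast_nonneg _)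
    set u := fun j => (w j).1
    set v := fun j => (w j).2
    have hf := (cnt_four u v x z y y).2
    rw [sub_self, add_zero, sub_zero] at hf
    rw [show pt x - pt y + (pt y - pt z) = pt x - pt z by abel,
      show pt x - pt y - (pt y - pt z) = pt x + pt z - pt y - pt y by abel, add_zero, sub_zero]
    have := mul_le_mul_of_nonneg_left hf (mul_nonneg (wt_nonneg hJ w) (cnt_nonneg u v (pt x - pt z)))
    linarith
  have hz := zc_zero_pos J
  rw [corr_eq, corr_eq, corr_eq, div_mul_div_comm, mul_div_assoc', div_le_div_iff₀ (by positivity) hz]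
  nlinarith [mul_le_mul_of_nonneg_right h hz.le]

/-- Covariance of two bond observables. -/
noncomputable def cov (J : V → V → ℝ) (a x u v : V) : ℝ :=
  avg J (fun θ => cos (θ a - θ x) * cos (θ u - θ v)) - corr J a x * corr J u v

theorem pf_mul_cos (J : V → V → ℝ) (a x u v : V) :
    pf J (fun θ => cos (θ a - θ x) * cos (θ u - θ v))
      = (zc J (pt a - pt x + (pt u - pt v)) + zc J (pt a - pt x - (pt u - pt v))) / 2 := by
  simp only [zc, pf]
  rw [← integral_add (integrable_weight J (by fun_prop) (C := 1) fun θ => abs_cos_le_one _)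
    (integrable_weight J (by fun_prop) (C := 1) fun θ => abs_cos_le_one _), ← integral_div]
  refine integral_congr_ae (Filter.Eventually.of_forall fun θ => ?_)
  simp only [dot_add, dot_sub, dot_pt, cos_add, cos_sub]
  ring

/-- Ginibre's inequality and a Lebowitz-type bound. -/
theorem cov_bounds {J : V → V → ℝ} (hJ : ∀ a b, 0 ≤ J a b) (a x u v : V) :
    0 ≤ cov J a x u v ∧
      cov J a x u v ≤ (corr J a u * corr J v x + corr J a v * corr J u x) / 2 := by
  set P := pt a - pt x + (pt u - pt v) with hP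
  set Q := pt a - pt x - (pt u - pt v) with hQ
  have hz := zc_zero_pos J
  have hL := ((((hasSum_pair J P 0).add (hasSum_pair J Q 0)).div_const 2).sub
    (hasSum_pair J (pt a - pt x) (pt u - pt v)))
  have hR := ((hasSum_pair J (pt a - pt u) (pt v - pt x)).add
    (hasSum_pair J (pt a - pt v) (pt u - pt x))).div_const 2
  have hrepr : cov J a x u v = ((zc J P * zc J 0 + zc J Q * zc J 0) / 2
      - zc J (pt a - pt x) * zc J (pt u - pt v)) / zc J 0 ^ 2 := by
    rw [cov, avg, pf_mul_cos, ← hP, ← hQ, ← zc_zero, corr_eq, corr_eq]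
    field_simp
  have key : ∀ k, 0 ≤ (pairTerm J P 0 k + pairTerm J Q 0 k) / 2 - pairTerm J (pt a - pt x) (pt u - pt v) k ∧
      (pairTerm J P 0 k + pairTerm J Q 0 k) / 2 - pairTerm J (pt a - pt x) (pt u - pt v) k
        ≤ (pairTerm J (pt a - pt u) (pt v - pt x) k + pairTerm J (pt a - pt v) (pt u - pt x) k) / 2 := by
    intro k
    simp only [pairTerm, add_zero, sub_zero, ← add_div, div_div, ← Finset.sum_add_distrib]
    rw [show pt a - pt u + (pt v - pt x) = Q by rw [hQ]; abel,
      show pt a - pt u - (pt v - pt x) = pt a + pt x - pt u - pt v by abel,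
      show pt a - pt v + (pt u - pt x) = P by rw [hP]; abel,
      show pt a - pt v - (pt u - pt x) = pt a + pt x - pt u - pt v by abel, ← hP, ← hQ]
    have hk : (0 : ℝ) < k.factorial := by exact_mod_cast k.factorial_pos
    have e : ∀ X Y : ℝ, X / (k.factorial * 2) - Y / k.factorial = (X - 2 * Y) / (k.factorial * 2) :=
      fun X Y => by field_simp
    rw [e]
    have hs : ∀ w : Fin k → V × V,
        2 * (wt J w * (cnt (fun j => (w j).1) (fun j => (w j).2) P * cnt (fun j => (w j).1) (fun j => (w j).2) Q))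
          ≤ wt J w * (cnt (fun j => (w j).1) (fun j => (w j).2) P * cnt (fun j => (w j).1) (fun j => (w j).2) P) +
            wt J w * (cnt (fun j => (w j).1) (fun j => (w j).2) Q * cnt (fun j => (w j).1) (fun j => (w j).2) Q) ∧
        wt J w * (cnt (fun j => (w j).1) (fun j => (w j).2) P * cnt (fun j => (w j).1) (fun j => (w j).2) P) +
            wt J w * (cnt (fun j => (w j).1) (fun j => (w j).2) Q * cnt (fun j => (w j).1) (fun j => (w j).2) Q) -
          2 * (wt J w * (cnt (fun j => (w j).1) (fun j => (w j).2) P * cnt (fun j => (w j).1) (fun j => (w j).2) Q))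
          ≤ wt J w * (cnt (fun j => (w j).1) (fun j => (w j).2) Q *
              cnt (fun j => (w j).1) (fun j => (w j).2) (pt a + pt x - pt u - pt v)) +
            wt J w * (cnt (fun j => (w j).1) (fun j => (w j).2) P *
              cnt (fun j => (w j).1) (fun j => (w j).2) (pt a + pt x - pt u - pt v)) := by
      intro w
      obtain ⟨h1, -⟩ := cnt_four (fun j => (w j).1) (fun j => (w j).2) a x u v
      rw [← hP, ← hQ] at h1
      set A := cnt (fun j => (w j).1) (fun j => (w j).2) P
      set B := cnt (fun j => (w j).1) (fun j => (w j).2) Q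
      set G := cnt (fun j => (w j).1) (fun j => (w j).2) (pt a + pt x - pt u - pt v)
      have hA : 0 ≤ A := cnt_nonneg _ _ _
      have hB : 0 ≤ B := cnt_nonneg _ _ _
      have hab : |A - B| ≤ A + B := abs_sub_le_iff.2 ⟨by linarith, by linarith⟩
      have hsq : (A - B) ^ 2 ≤ (A + B) * G := by
        rw [← sq_abs, sq]
        exact mul_le_mul hab h1 (abs_nonneg _) (by linarith)
      have hw := wt_nonneg hJ w
      constructor
      · nlinarith [mul_nonneg hw (sq_nonneg (A - B))]
      · nlinarith [mul_le_mul_of_nonneg_left hsq hw]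
    have h1 := Finset.sum_le_sum fun w (_ : w ∈ Finset.univ) => (hs w).1
    have h2 := Finset.sum_le_sum fun w (_ : w ∈ Finset.univ) => (hs w).2
    simp only [Finset.sum_sub_distrib, Finset.sum_add_distrib, ← Finset.mul_sum] at h1 h2 ⊢
    exact ⟨div_nonneg (by linarith) (by positivity),
      div_le_div_of_nonneg_right (by linarith) (by positivity)⟩
  rw [hrepr]
  refine ⟨div_nonneg (hL.nonneg fun k => (key k).1) (sq_nonneg _), ?_⟩
  rw [corr_eq, corr_eq, corr_eq, corr_eq, div_le_iff₀ (by positivity)]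
  have := hasSum_le (fun k => (key k).2) hL hR
  field_simp at this ⊢
  linarith

end Vale.Agent.P159
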