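import Mathlib

/-!
# P159: orientations of multigraphs as positive combinations of pairings of stubs

For a multigraph with marked half-edges (stubs), the number of orientations balanced at every
vertex, as a function of the signs of the stubs, is a positive combination of indicators
`alternating along π`, over pairings `π` of the stubs.
-/

open scoped BigOperators Classical

namespace Vale.Agent.P159

/-- The sign `±1` of a Boolean. -/
def sgn (b : Bool) : ℤ := if b then 1 else -1

theorem sgn_not (b : Bool) : sgn (!b) = -sgn b := by cases b <;> rfl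

/-- `π` matches the index set in pairs. -/
def IsPairing {S : Type*} (π : S → S) : Prop := Function.Involutive π ∧ ∀ i, π i ≠ i

/-- The signs alternate along every pair of `π`. -/
def Alt {S : Type*} (π : S → S) (s : S → Bool) : Prop := ∀ i, s (π i) = !s i

/-- The real indicator of a proposition. -/
noncomputable def ind (p : Prop) : ℝ := if p then 1 else 0

theorem ind_congr {p q : Prop} (h : p ↔ q) : ind p = ind q := by
  unfold ind
  by_cases hp : p
  · rw [if_pos hp, if_pos (h.1 hp)]
  · rw [if_neg hp, if_neg (fun hq => hp (h.2 hq))]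

/-- The cone spanned by the alternation indicators of pairings. -/
inductive InCone {S : Type*} : ((S → Bool) → ℝ) → Prop
  | zero : InCone fun _ => 0
  | add {F G : (S → Bool) → ℝ} : InCone F → InCone G → InCone fun s => F s + G s
  | smul {F : (S → Bool) → ℝ} (c : ℝ) : 0 ≤ c → InCone F → InCone fun s => c * F s
  | basic (π : S → S) : IsPairing π → InCone fun s => ind (Alt π s)

theorem InCone.congr {S : Type*} {F G : (S → Bool) → ℝ} (hF : InCone F) (h : ∀ s, G s = F s) :
    InCone G := by
  rwa [show G = F from funext h]

theorem InCone.finset_sum {S ι : Type*} (A : Finset ι) (F : ι → (S → Bool) → ℝ)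
    (h : ∀ a ∈ A, InCone (F a)) : InCone fun s => ∑ a ∈ A, F a s := by
  induction A using Finset.induction with
  | empty => simpa using (InCone.zero : InCone fun _ : S → Bool => (0 : ℝ))
  | insert a A ha ih =>
    exact ((h a (Finset.mem_insert_self a A)).add
      (ih fun b hb => h b (Finset.mem_insert_of_mem hb))).congr fun s => Finset.sum_insert ha

variable {V : Type*} [DecidableEq V] {S : Type*} [Fintype S] [DecidableEq S]

/-- The net number of stubs at a vertex. -/
def excess (p : S → V) (s : S → Bool) (z : V) : ℤ := ∑ i, if p i = z then sgn (s i) else 0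

omit [DecidableEq S] in
theorem excess_alt (p : S → V) {π : S → S} (hπ : IsPairing π) (hp : ∀ i, p (π i) = p i)
    {s : S → Bool} (hs : Alt π s) (z : V) : excess p s z = 0 := by
  have h : excess p s z = -excess p s z := by
    rw [excess, ← Finset.sum_neg_distrib]
    conv_lhs => rw [← (Equiv.sum_comp hπ.1.toPerm fun i => if p i = z then sgn (s i) else 0)]
    refine Finset.sum_congr rfl fun i _ => ?_
    simp only [Function.Involutive.coe_toPerm, hp i, hs i, sgn_not]
    split_ifs <;> simp
  omega

theorem card_sign_fibre (p : S → V) {s : S → Bool} (hs : ∀ z, excess p s z = 0) (z : V) (b : Bool) :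
    2 * Fintype.card {i // (p i, s i) = (z, b)} = Fintype.card {i // p i = z} := by
  set P := Finset.univ.filter fun i => p i = z ∧ s i = true
  set N := Finset.univ.filter fun i => p i = z ∧ s i = false
  have hsum : (Finset.univ.filter fun i => p i = z).card = P.card + N.card := by
    rw [← Finset.card_union_of_disjoint]
    · congr 1
      ext i
      cases h : s i <;> simp [P, N, h]
    · rw [Finset.disjoint_left]
      intro i hi hi'
      simp [P, N] at hi hi'
      simp [hi.2] at hi'
  have hdiff : (P.card : ℤ) - N.card = 0 := by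
    rw [← hs z, excess, Finset.card_filter, Finset.card_filter]
    push_cast
    rw [← Finset.sum_sub_distrib]
    refine Finset.sum_congr rfl fun i _ => ?_
    by_cases hz : p i = z <;> cases h : s i <;> simp [hz, sgn]
  rw [Fintype.card_subtype, Fintype.card_subtype, hsum]
  cases b <;> simp only [Prod.mk.injEq] <;> show 2 * Finset.card _ = _
  · show 2 * N.card = _
    omega
  · show 2 * P.card = _
    omega

theorem exists_relabel (p : S → V) {s s' : S → Bool} (hs : ∀ z, excess p s z = 0)
    (hs' : ∀ z, excess p s' z = 0) : ∃ τ : Equiv.Perm S, ∀ i, p (τ i) = p i ∧ s' (τ i) = s i := by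
  have e : ∀ c : V × Bool, {i // (p i, s i) = c} ≃ {i // (p i, s' i) = c} := fun c =>
    Fintype.equivOfCardEq (by
      have h1 := card_sign_fibre p hs c.1 c.2
      have h2 := card_sign_fibre p hs' c.1 c.2
      simp only [Prod.mk.eta] at h1 h2
      omega)
  refine ⟨Equiv.ofFiberEquiv e, fun i => ?_⟩
  have h := Equiv.ofFiberEquiv_map e i
  exact ⟨congrArg Prod.fst h, congrArg Prod.snd h⟩

theorem exists_pairing (p : S → V) {s : S → Bool} (hs : ∀ z, excess p s z = 0) :
    ∃ π : S → S, IsPairing π ∧ (∀ i, p (π i) = p i) ∧ Alt π s := by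
  have hs' : ∀ z, excess p (fun i => !s i) z = 0 := fun z => by
    rw [← neg_zero, ← hs z, excess, excess, ← Finset.sum_neg_distrib]
    refine Finset.sum_congr rfl fun i _ => ?_
    rw [sgn_not]
    split_ifs <;> simp
  obtain ⟨τ, hτ⟩ := exists_relabel p hs hs'
  have h1 : ∀ i, s (τ i) = !s i := fun i => by rw [← (hτ i).2, Bool.not_not]
  have h2 : ∀ i, s (τ.symm i) = !s i := fun i => by
    have := h1 (τ.symm i)
    rw [Equiv.apply_symm_apply] at this
    rw [this, Bool.not_not]
  have h3 : ∀ i, p (τ.symm i) = p i := fun i => by
    have := (hτ (τ.symm i)).1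
    rw [Equiv.apply_symm_apply] at this
    exact this.symm
  have halt : ∀ i, s (bif s i then τ i else τ.symm i) = !s i := fun i => by
    cases h : s i <;> simp [h1, h2, h]
  refine ⟨fun i => bif s i then τ i else τ.symm i, ⟨fun i => ?_, fun i h => ?_⟩, fun i => ?_, halt⟩
  · cases h : s i <;> simp [h1, h2, h]
  · have := halt i
    simp only at h
    rw [h] at this
    cases hsi : s i <;> simp [hsi] at this
  · cases h : s i <;> simp [h, (hτ i).1, h3]

theorem inCone_balanced (p : S → V) : InCone fun s => ind (∀ z, excess p s z = 0) := by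
  by_cases hex : ∃ s, ∀ z, excess p s z = 0
  swap
  · refine InCone.zero.congr fun s => ?_
    exact if_neg fun h => hex ⟨s, h⟩
  obtain ⟨s₀, hs₀⟩ := hex
  set P := Finset.univ.filter fun π : S → S => IsPairing π ∧ ∀ i, p (π i) = p i with hP
  set N : (S → Bool) → ℕ := fun s => (P.filter fun π => Alt π s).card with hN
  have hsame : ∀ s, (∀ z, excess p s z = 0) → N s = N s₀ := by
    intro s hs
    obtain ⟨τ, hτ⟩ := exists_relabel p hs₀ hs
    have hp' : ∀ i, p (τ.symm i) = p i := fun i => by
      have := (hτ (τ.symm i)).1
      rw [Equiv.apply_symm_apply] at this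
      exact this.symm
    refine Finset.card_nbij' (fun π i => τ.symm (π (τ i))) (fun π i => τ (π (τ.symm i))) ?_ ?_ ?_ ?_
    · intro π hπ
      simp only [hP, Finset.mem_coe, Finset.mem_filter, Finset.mem_univ, true_and] at hπ ⊢
      obtain ⟨⟨⟨hi, hn⟩, hp⟩, ha⟩ := hπ
      refine ⟨⟨⟨fun i => ?_, fun i h => hn (τ i) ?_⟩, fun i => ?_⟩, fun i => ?_⟩
      · simp [hi (τ i)]
      · have := congrArg τ h
        simpa using this
      · rw [hp', hp, (hτ i).1]
      · rw [← (hτ (τ.symm (π (τ i)))).2, Equiv.apply_symm_apply, ha, (hτ i).2]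
    · intro π hπ
      simp only [hP, Finset.mem_coe, Finset.mem_filter, Finset.mem_univ, true_and] at hπ ⊢
      obtain ⟨⟨⟨hi, hn⟩, hp⟩, ha⟩ := hπ
      refine ⟨⟨⟨fun i => ?_, fun i h => hn (τ.symm i) ?_⟩, fun i => ?_⟩, fun i => ?_⟩
      · simp [hi (τ.symm i)]
      · have := congrArg τ.symm h
        simpa using this
      · rw [(hτ _).1, hp, hp']
      · rw [(hτ _).2, ha, ← (hτ (τ.symm i)).2, Equiv.apply_symm_apply]
    · intro π _
      funext i
      simp
    · intro π _
      funext i
      simp
  have hpos : 0 < N s₀ := by
    obtain ⟨π, h1, h2, h3⟩ := exists_pairing p hs₀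
    exact Finset.card_pos.2 ⟨π, by simp [hP, h1, h2, h3]⟩
  refine ((InCone.finset_sum P (fun π s => ind (Alt π s)) fun π hπ =>
    InCone.basic π (Finset.mem_filter.1 hπ).2.1).smul (1 / (N s₀ : ℝ)) (by positivity)).congr fun s => ?_
  have hsum : ∑ π ∈ P, ind (Alt π s) = (N s : ℝ) := by
    simp [hN, ind, Finset.sum_boole]
  rw [hsum]
  by_cases hs : ∀ z, excess p s z = 0
  · rw [hsame s hs, ind, if_pos hs, one_div, inv_mul_cancel₀ (by exact_mod_cast hpos.ne')]
  · have h0 : N s = 0 := by
      refine Finset.card_eq_zero.2 (Finset.filter_eq_empty_iff.2 fun π hπ ha => hs fun z => ?_)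
      obtain ⟨h1, h2⟩ := (Finset.mem_filter.1 hπ).2
      exact excess_alt p h1 h2 ha z
    rw [ind, if_neg hs, h0]
    simp

/-- Extend signs by the two ends of one more edge. -/
def withEdge (s : S → Bool) (σ : Bool) : Option (Option S) → Bool
  | none => σ
  | some none => !σ
  | some (some i) => s i

omit [Fintype S] in
theorem basic_contract (π : Option (Option S) → Option (Option S)) (hπ : IsPairing π) :
    InCone fun s : S → Bool => ∑ σ : Bool, ind (Alt π (withEdge s σ)) := by
  obtain ⟨hi, hn⟩ := hπ
  have hinj : Function.Injective π := hi.injective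
  rcases h0 : π none with _ | _ | a
  · exact absurd h0 (hn none)
  · have h1 : π (some none) = none := by rw [← h0, hi none]
    have hss : ∀ i, ∃ j, π (some (some i)) = some (some j) := fun i => by
      rcases h : π (some (some i)) with _ | _ | j
      · simpa using hinj (h.trans h1.symm)
      · simpa using hinj (h.trans h0.symm)
      · exact ⟨j, rfl⟩
    choose q hq using hss
    have hqp : IsPairing q := by
      refine ⟨fun i => ?_, fun i h => hn (some (some i)) (by rw [hq, h])⟩
      have := hi (some (some i))
      rw [hq, hq] at this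
      simpa using this
    refine ((InCone.basic q hqp).smul 2 zero_le_two).congr fun s => ?_
    have he : ∀ σ, Alt π (withEdge s σ) ↔ Alt q s := fun σ => by
      refine ⟨fun h i => by simpa [hq, withEdge] using h (some (some i)), fun h => ?_⟩
      rintro (_ | _ | i)
      · simp [h0, withEdge]
      · simp [h1, withEdge]
      · simpa [hq, withEdge] using h i
    simp only [ind_congr (he _), Fintype.sum_bool]
    ring
  · rcases h2 : π (some none) with _ | _ | b
    · rw [← h2, hi] at h0
      simp at h0
    · exact absurd h2 (hn (some none))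
    have ha : π (some (some a)) = none := by rw [← h0, hi none]
    have hb : π (some (some b)) = some none := by rw [← h2, hi]
    have hab : a ≠ b := fun h => by rw [h] at ha; rw [ha] at hb; simp at hb
    have hss : ∀ i, i ≠ a → i ≠ b → ∃ j, π (some (some i)) = some (some j) ∧ j ≠ a ∧ j ≠ b := by
      intro i hia hib
      rcases h : π (some (some i)) with _ | _ | j
      · exact absurd (hinj (h.trans ha.symm)) (by simpa using hia)
      · exact absurd (hinj (h.trans hb.symm)) (by simpa using hib)
      · refine ⟨j, rfl, fun hja => ?_, fun hjb => ?_⟩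
        · have := hi (some (some i))
          rw [h, hja, ha] at this
          simp at this
        · have := hi (some (some i))
          rw [h, hjb, hb] at this
          simp at this
    choose r hr hra hrb using hss
    set q : S → S := fun i => if hia : i = a then b else if hib : i = b then a else r i hia hib with hqdef
    have hqa : q a = b := by simp [hqdef]
    have hqb : q b = a := by simp [hqdef, hab.symm]
    have hqo : ∀ i, i ≠ a → i ≠ b → π (some (some i)) = some (some (q i)) ∧ q i ≠ a ∧ q i ≠ b := by
      intro i h1 h2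
      simp only [hqdef, dif_neg h1, dif_neg h2]
      exact ⟨hr i h1 h2, hra i h1 h2, hrb i h1 h2⟩
    have hqp : IsPairing q := by
      constructor
      · intro i
        by_cases h1 : i = a
        · rw [h1, hqa, hqb]
        by_cases h2 : i = b
        · rw [h2, hqb, hqa]
        obtain ⟨e1, e2, e3⟩ := hqo i h1 h2
        obtain ⟨e4, -, -⟩ := hqo _ e2 e3
        have := hi (some (some i))
        rw [e1, e4] at this
        simpa using this
      · intro i h
        by_cases h1 : i = a
        · rw [h1, hqa] at h; exact hab h.symm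
        by_cases h2 : i = b
        · rw [h2, hqb] at h; exact hab h
        exact hn (some (some i)) (by rw [(hqo i h1 h2).1, h])
    refine (InCone.basic q hqp).congr fun s => ?_
    have he : ∀ σ, Alt π (withEdge s σ) ↔ σ = !s a ∧ Alt q s := fun σ => by
      constructor
      · intro h
        have e1 : σ = !s a := by simpa [ha, withEdge] using h (some (some a))
        have e2 : σ = s b := by simpa [hb, withEdge] using h (some (some b))
        refine ⟨e1, fun i => ?_⟩
        by_cases h1 : i = a
        · rw [h1, hqa, ← e2, e1]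
        by_cases h2 : i = b
        · rw [h2, hqb, ← e2, e1, Bool.not_not]
        simpa [(hqo i h1 h2).1, withEdge] using h (some (some i))
      · rintro ⟨rfl, h⟩
        have hba : s b = !s a := by simpa [hqa] using h a
        rintro (_ | _ | i)
        · simp [h0, withEdge]
        · simp [h2, withEdge, hba]
        · by_cases h1 : i = a
          · simp [h1, ha, withEdge]
          by_cases h3 : i = b
          · simp [h3, hb, withEdge, hba]
          simpa [(hqo i h1 h3).1, withEdge] using h i
    simp only [ind_congr (he _), Fintype.sum_bool]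
    cases s a <;> simp [ind]

omit [Fintype S] in
theorem InCone.contract {F : (Option (Option S) → Bool) → ℝ} (hF : InCone F) :
    InCone fun s : S → Bool => ∑ σ : Bool, F (withEdge s σ) := by
  induction hF with
  | zero => exact InCone.zero.congr fun s => by simp
  | add _ _ h1 h2 => exact (h1.add h2).congr fun s => Finset.sum_add_distrib
  | smul c hc _ h => exact (h.smul c hc).congr fun s => (Finset.mul_sum _ _ _).symm
  | basic π hπ => exact basic_contract π hπ

/-- The charge of an oriented edge list at a vertex. -/
def flow {k : ℕ} (u v : Fin k → V) (σ : Fin k → Bool) (z : V) : ℤ :=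
  ∑ j, sgn (σ j) * ((if u j = z then 1 else 0) - if v j = z then 1 else 0)

/-- The number of orientations with prescribed charges. -/
noncomputable def cnt {k : ℕ} (u v : Fin k → V) (D : V → ℤ) : ℝ :=
  ∑ σ : Fin k → Bool, ind (flow u v σ = D)

theorem cnt_nonneg {k : ℕ} (u v : Fin k → V) (D : V → ℤ) : 0 ≤ cnt u v D :=
  Finset.sum_nonneg fun σ _ => by unfold ind; split_ifs <;> norm_num

theorem flow_not {k : ℕ} (u v : Fin k → V) (σ : Fin k → Bool) :
    flow u v (fun j => !σ j) = -flow u v σ := by
  funext z
  simp only [flow, Pi.neg_apply, sgn_not, neg_mul, Finset.sum_neg_distrib]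

theorem cnt_neg {k : ℕ} (u v : Fin k → V) (D : V → ℤ) : cnt u v (-D) = cnt u v D := by
  refine Fintype.sum_equiv ((Equiv.refl (Fin k)).arrowCongr Equiv.boolNot) _ _ fun σ => ind_congr ?_
  rw [show ((Equiv.refl (Fin k)).arrowCongr Equiv.boolNot) σ = fun j => !σ j from rfl, flow_not]
  constructor <;> intro h
  · rw [h, neg_neg]
  · rw [← h, neg_neg]

theorem inCone_orient : ∀ (k : ℕ) (u v : Fin k → V) {S : Type} [Fintype S] [DecidableEq S] (p : S → V),
    InCone fun s : S → Bool => ∑ σ : Fin k → Bool, ind (∀ z, excess p s z + flow u v σ z = 0) := by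
  intro k
  induction k with
  | zero =>
    intro u v S _ _ p
    exact (inCone_balanced p).congr fun s => by simp [flow]
  | succ k ih =>
    intro u v S _ _ p
    let p' : Option (Option S) → V := fun
      | none => u 0
      | some none => v 0
      | some (some i) => p i
    refine (ih (fun j => u j.succ) (fun j => v j.succ) p').contract.congr fun s => ?_
    rw [← Equiv.sum_comp (Fin.consEquiv fun _ => Bool), Fintype.sum_prod_type]
    refine Finset.sum_congr rfl fun σ₀ _ => Finset.sum_congr rfl fun σ _ => ind_congr ?_
    refine forall_congr' fun z => ?_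
    simp only [excess, flow, Fin.sum_univ_succ, Fin.consEquiv_apply, Fin.cons_zero, Fin.cons_succ,
      Fintype.sum_option, withEdge, p', sgn_not]
    constructor <;> intro h <;> split_ifs at h ⊢ <;> linarith

theorem inCone_cnt {k : ℕ} (u v : Fin k → V) {S : Type} [Fintype S] [DecidableEq S] (p : S → V) :
    InCone fun s : S → Bool => cnt u v (excess p s) := by
  refine (inCone_orient k u v p).congr fun s => ?_
  rw [← cnt_neg, cnt]
  refine Finset.sum_congr rfl fun σ _ => ind_congr ?_
  rw [funext_iff]
  refine forall_congr' fun z => ?_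
  simp only [Pi.neg_apply]
  constructor <;> intro h <;> linarith

/-- The unit charge at a vertex. -/
def pt (a : V) : V → ℤ := fun z => if a = z then 1 else 0

/-- Signs of four stubs. -/
def sg4 (a b c d : Bool) : Fin 4 → Bool := ![a, b, c, d]

theorem four_point_cone {F : (Fin 4 → Bool) → ℝ} (hF : InCone F) :
    |F (sg4 true false true false) - F (sg4 true false false true)| ≤ F (sg4 true true false false) ∧
      F (sg4 true true false false)
        ≤ F (sg4 true false true false) + F (sg4 true false false true) := by
  induction hF with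
  | zero => simp
  | add _ _ h1 h2 =>
    refine ⟨?_, by linarith [h1.2, h2.2]⟩
    rw [abs_le] at h1 h2 ⊢
    constructor <;> linarith [h1.1.1, h1.1.2, h2.1.1, h2.1.2]
  | smul c hc _ h =>
    refine ⟨?_, by nlinarith [mul_le_mul_of_nonneg_left h.2 hc]⟩
    rw [← mul_sub, abs_mul, abs_of_nonneg hc]
    exact mul_le_mul_of_nonneg_left h.1 hc
  | basic π hπ =>
    obtain ⟨hi, hn⟩ := hπ
    have h0 := hn 0
    have hall : ∀ π : Fin 4 → Fin 4, (∀ i, π (π i) = i) → (∀ i, π i ≠ i) →
        π = ![1, 0, 3, 2] ∨ π = ![2, 3, 0, 1] ∨ π = ![3, 2, 1, 0] := by decide +kernel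
    have e : ∀ (π : Fin 4 → Fin 4) (s : Fin 4 → Bool), Alt π s ↔ (s (π 0) = !s 0 ∧ s (π 1) = !s 1 ∧
        s (π 2) = !s 2 ∧ s (π 3) = !s 3) := fun π s => by
      simp [Alt, Fin.forall_fin_succ]
    rcases hall π hi hn with rfl | rfl | rfl <;> simp [ind, e, sg4]

theorem cnt_four {k : ℕ} (w₁ w₂ : Fin k → V) (a x u v : V) :
    |cnt w₁ w₂ (pt a - pt x + (pt u - pt v)) - cnt w₁ w₂ (pt a - pt x - (pt u - pt v))|
        ≤ cnt w₁ w₂ (pt a + pt x - pt u - pt v) ∧
      cnt w₁ w₂ (pt a + pt x - pt u - pt v)
        ≤ cnt w₁ w₂ (pt a - pt x + (pt u - pt v)) + cnt w₁ w₂ (pt a - pt x - (pt u - pt v)) := by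
  have h := four_point_cone (inCone_cnt w₁ w₂ ![a, x, u, v])
  have e1 : excess ![a, x, u, v] (sg4 true false true false) = pt a - pt x + (pt u - pt v) := by
    funext z; simp [excess, sg4, pt, sgn, Fin.sum_univ_succ]; split_ifs <;> ring
  have e2 : excess ![a, x, u, v] (sg4 true false false true) = pt a - pt x - (pt u - pt v) := by
    funext z; simp [excess, sg4, pt, sgn, Fin.sum_univ_succ]; split_ifs <;> ring
  have e3 : excess ![a, x, u, v] (sg4 true true false false) = pt a + pt x - pt u - pt v := by
    funext z; simp [excess, sg4, pt, sgn, Fin.sum_univ_succ]; split_ifs <;> ring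
  simpa only [e1, e2, e3] using h

end Vale.Agent.P159
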