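import Vale.Agent.P159.Box

/-!
# P159: a Simon inequality, and summability forces exponential decay

Both are derived from the covariance bound by interpolation in the couplings.
-/

open Real Filter Topology

namespace Vale.Agent.P159

theorem sum_adj_le (S : Finset (ℤ × ℤ)) (u : ℤ × ℤ) : ∑ v ∈ S, adj u v ≤ 4 := by
  simp only [adj, Finset.sum_boole]
  have hsub : S.filter (fun v => dsq u v = 1) ⊆
      {(u.1 + 1, u.2), (u.1 - 1, u.2), (u.1, u.2 + 1), (u.1, u.2 - 1)} := by
    intro v hv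
    have h := (Finset.mem_filter.1 hv).2
    unfold dsq at h
    have h1 : (u.1 - v.1) ^ 2 ≤ 1 := by nlinarith [sq_nonneg (u.2 - v.2)]
    have h2 : (u.2 - v.2) ^ 2 ≤ 1 := by nlinarith [sq_nonneg (u.1 - v.1)]
    rw [sq_le_one_iff_abs_le_one, abs_le] at h1 h2
    simp only [Finset.mem_insert, Finset.mem_singleton, Prod.ext_iff]
    rcases (by omega : u.1 - v.1 = -1 ∨ u.1 - v.1 = 0 ∨ u.1 - v.1 = 1) with e | e | e <;>
      rcases (by omega : u.2 - v.2 = -1 ∨ u.2 - v.2 = 0 ∨ u.2 - v.2 = 1) with e' | e' | e' <;>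
      simp_all <;> omega
  calc ((S.filter fun v => dsq u v = 1).card : ℝ) ≤ (4 : ℕ) := by
        exact_mod_cast (Finset.card_le_card hsub).trans Finset.card_le_four
    _ = 4 := by norm_num

/-- The sum of the two-point function over the two layers next to the boundary of a box. -/
noncomputable def shell (b : ℝ) (R : ℕ) : ℝ := ∑ u ∈ (box (R + 1)).filter (fun u => R ≤ nrm u), G b u

/-- A Simon inequality: correlations across a cut are bounded through the cut bonds. -/
theorem corr_le_cut {V : Type*} [Fintype V] [DecidableEq V] {J : V → V → ℝ} (hJ : ∀ p q, 0 ≤ J p q)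
    (hsym : ∀ p q, J p q = J q p) (P : V → Prop) [DecidablePred P] {o x : V} (ho : P o) (hx : ¬P x) :
    corr J o x ≤ ∑ e : V × V,
      (if P e.1 ↔ P e.2 then 0 else J e.1 e.2 * (corr J o e.1 * corr J e.2 x)) := by
  set J0 : V → V → ℝ := fun p q => if (P p ↔ P q) then J p q else 0 with hJ0def
  have hJ0 : ∀ p q, 0 ≤ J0 p q := fun p q => by
    simp only [hJ0def]; split_ifs; exacts [hJ p q, le_rfl]
  have hle : ∀ p q, J0 p q ≤ J p q := fun p q => by
    simp only [hJ0def]; split_ifs; exacts [le_rfl, hJ p q]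
  have hcut : corr J0 o x = 0 := by
    refine corr_eq_zero_of_cut P (fun p q h => ?_) ho hx
    simp only [hJ0def, if_neg h]
  set K : V → V → ℝ := fun p q => J p q - J0 p q with hKdef
  have hK : ∀ p q, 0 ≤ K p q := fun p q => sub_nonneg.2 (hle p q)
  have hT : ∀ e : V × V, K e.1 e.2 * (corr J o e.1 * corr J e.2 x)
      = if P e.1 ↔ P e.2 then 0 else J e.1 e.2 * (corr J o e.1 * corr J e.2 x) := fun e => by
    simp only [hKdef, hJ0def]; split_ifs <;> simp
  have hswap : ∑ e : V × V, K e.1 e.2 * (corr J o e.2 * corr J e.1 x)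
      = ∑ e : V × V, K e.1 e.2 * (corr J o e.1 * corr J e.2 x) := by
    rw [← Equiv.sum_comp (Equiv.prodComm V V)]
    refine Finset.sum_congr rfl fun e _ => ?_
    simp only [hKdef, hJ0def, Equiv.prodComm_apply, Prod.fst_swap, Prod.snd_swap, hsym e.2 e.1,
      iff_comm (a := P e.2) (b := P e.1)]
  simp only [← hT]
  have hfin := corr_sub_le (J := J0) (J' := J) o x
    (C := ∑ e : V × V, K e.1 e.2 * (corr J o e.1 * corr J e.2 x)) fun t ht => by
    have hL : ∀ p q, lineJ J0 K t p q ≤ J p q := fun p q => by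
      have := mul_le_mul_of_nonneg_right ht.2.le (hK p q)
      simp only [lineJ, hKdef] at this ⊢
      linarith
    have hL0 := lineJ_nonneg hJ0 hK ht.1.le
    refine (Finset.sum_le_sum fun e _ => mul_le_mul_of_nonneg_left
      ((cov_bounds hL0 o x e.1 e.2).2.trans (div_le_div_of_nonneg_right (add_le_add
        (mul_le_mul (corr_mono hL0 hL _ _) (corr_mono hL0 hL _ _) (corr_nonneg hL0 _ _) (corr_nonneg hJ _ _))
        (mul_le_mul (corr_mono hL0 hL _ _) (corr_mono hL0 hL _ _) (corr_nonneg hL0 _ _) (corr_nonneg hJ _ _)))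
        zero_le_two)) (hK e.1 e.2)).trans ?_
    simp only [mul_div_assoc', ← Finset.sum_div, mul_add, Finset.sum_add_distrib]
    rw [hswap]
    linarith
  rw [hcut, sub_zero] at hfin
  exact hfin

/-- A Simon inequality for boxes. -/
theorem simon {b : ℝ} (hb : 0 ≤ b) {R : ℕ} {x : ℤ × ℤ} (hx : R < nrm x) {M : ℝ}
    (hM : ∀ z, nrm x ≤ nrm z + (R + 1) → G b z ≤ M) : G b x ≤ 2 * b * shell b R * M := by
  have hM0 : 0 ≤ M := (G_nonneg hb x).trans (hM x (by omega))
  have hsh : 0 ≤ shell b R := Finset.sum_nonneg fun u _ => G_nonneg hb u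
  refine ciSup_le fun N => ?_
  by_cases hmem : (0 : ℤ × ℤ) ∈ box N ∧ x ∈ box N
  swap
  · rw [corrS, dif_neg hmem]; positivity
  rw [corrS_of_mem hmem.1 hmem.2]
  generalize hS : box N = S at hmem ⊢
  set w : ℤ × ℤ → ℝ := fun u => if R ≤ nrm u ∧ nrm u ≤ R + 1 then G b u * M * (b / 2) else 0 with hwdef
  have hw0 : ∀ u, 0 ≤ w u := fun u => by
    simp only [hwdef]
    split_ifs
    exacts [mul_nonneg (mul_nonneg (G_nonneg hb u) hM0) (by linarith), le_rfl]
  refine (corr_le_cut (coup_nonneg hb S) (fun p q => by rw [coup, coup, adj_comm])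
    (fun p : ↥S => nrm p.1 ≤ R) (show nrm (0 : ℤ × ℤ) ≤ R by simp [nrm]) (not_le.2 hx)).trans ?_
  have hT : ∀ e : ↥S × ↥S,
      (if nrm e.1.1 ≤ R ↔ nrm e.2.1 ≤ R then 0 else coup b S e.1 e.2 *
        (corr (coup b S) ⟨0, hmem.1⟩ e.1 * corr (coup b S) e.2 ⟨x, hmem.2⟩))
      ≤ w e.1.1 * adj e.1.1 e.2.1 := by
    intro e
    by_cases hc : nrm e.1.1 ≤ R ↔ nrm e.2.1 ≤ R
    · rw [if_pos hc]; exact mul_nonneg (hw0 _) (adj_nonneg _ _)
    rw [if_neg hc]
    by_cases hadj : dsq e.1.1 e.2.1 = 1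
    swap
    · have hA : adj e.1.1 e.2.1 = 0 := if_neg hadj
      simp [coup, hA]
    have h1 := nrm_le_of_adj hadj
    have h2 := nrm_le_of_adj ((dsq_comm _ _).trans hadj)
    have hu : R ≤ nrm e.1.1 ∧ nrm e.1.1 ≤ R + 1 := by omega
    have hv : nrm e.2.1 ≤ R + 1 := by omega
    simp only [hwdef, coup, adj, if_pos hu, if_pos hadj, mul_one]
    have hA : corr (coup b S) ⟨0, hmem.1⟩ e.1 ≤ G b e.1.1 := by
      rw [← corrS_coe]; exact corrS_le_C hb S 0 e.1.1
    have hB : corr (coup b S) e.2 ⟨x, hmem.2⟩ ≤ M := by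
      rw [← corrS_coe]
      refine (corrS_le_C hb S e.2.1 x).trans (C_eq_G hb _ _ ▸ hM _ ?_)
      have := nrm_add_le (x - e.2.1) e.2.1
      rw [sub_add_cancel] at this
      omega
    have := mul_le_mul_of_nonneg_left (mul_le_mul hA hB (corr_nonneg (coup_nonneg hb S) _ _) (G_nonneg hb _))
      (by linarith : (0 : ℝ) ≤ b / 2)
    linarith
  refine (Finset.sum_le_sum fun e _ => hT e).trans ?_
  rw [Fintype.sum_prod_type]
  have hrow : ∀ u : ↥S, ∑ v : ↥S, w u.1 * adj u.1 v.1 ≤ w u.1 * 4 := fun u => by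
    rw [← Finset.mul_sum, Finset.sum_coe_sort S (adj u.1)]
    exact mul_le_mul_of_nonneg_left (sum_adj_le S u.1) (hw0 _)
  refine (Finset.sum_le_sum fun u _ => hrow u).trans ?_
  rw [← Finset.sum_mul, Finset.sum_coe_sort S w]
  simp only [hwdef]
  rw [← Finset.sum_filter, ← Finset.sum_mul, ← Finset.sum_mul]
  have : ∑ u ∈ S.filter (fun u => R ≤ nrm u ∧ nrm u ≤ R + 1), G b u ≤ shell b R :=
    Finset.sum_le_sum_of_subset_of_nonneg (fun u hu => by
      obtain ⟨-, h1, h2⟩ := Finset.mem_filter.1 hu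
      exact Finset.mem_filter.2 ⟨mem_box.2 h2, h1⟩) fun u _ _ => G_nonneg hb u
  nlinarith [mul_le_mul_of_nonneg_right this (mul_nonneg hM0 hb)]

theorem G_le_pow {b : ℝ} (hb : 0 ≤ b) (R : ℕ) :
    ∀ k x, k * (R + 1) ≤ nrm x → G b x ≤ (2 * b * shell b R) ^ k
  | 0, x, _ => by rw [pow_zero]; exact G_le_one b x
  | k + 1, x, hx => by
    rw [add_mul, one_mul] at hx
    rw [pow_succ']
    exact simon hb (by omega) fun z hz => G_le_pow hb R k z (by omega)

/-- A small shell sum forces exponential decay. -/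
theorem mass_pos_of_shell {b : ℝ} (hb : 0 < b) {R : ℕ} (h : 2 * b * shell b R < 1) : 0 < mass b := by
  set a := 2 * b * shell b R with ha
  have hg : ∀ k : ℕ, g b (k * (R + 1)) ≤ a ^ k := fun k => G_le_pow hb.le R k _ (by simp only [nrm]; omega)
  have ha0 : 0 < a := by
    refine (g_pos hb (1 * (R + 1))).trans_le ?_
    simpa using hg 1
  have hlog : log a < 0 := log_neg ha0 h
  have hsub : Tendsto (fun k : ℕ => k * (R + 1)) atTop atTop :=
    tendsto_atTop_mono (fun k => Nat.le_mul_of_pos_right k (Nat.succ_pos R)) tendsto_id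
  refine lt_of_lt_of_le (div_pos (neg_pos.2 hlog) (by positivity : (0 : ℝ) < R + 1))
    (ge_of_tendsto ((tendsto_mass hb).comp hsub) ((eventually_ge_atTop 1).mono fun k hk => ?_))
  simp only [Function.comp_apply]
  have hk0 : (0 : ℝ) < k := by exact_mod_cast hk
  have := log_le_log (g_pos hb _) (hg k)
  rw [log_pow] at this
  push_cast
  rw [div_le_div_iff₀ (by positivity) (by positivity)]
  nlinarith

/-- The susceptibility is at most `A`. -/
def Bdd (b A : ℝ) : Prop := ∀ R : ℕ, ∑ y ∈ box R, G b y ≤ A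

theorem Bdd.one_le {b A : ℝ} (hb : 0 ≤ b) (h : Bdd b A) : 1 ≤ A := by
  refine le_trans ?_ (h 0)
  rw [← G_zero hb]
  exact Finset.single_le_sum (fun y _ => G_nonneg hb y) (zero_mem_box 0)

theorem mass_pos_of_bdd {b A : ℝ} (hb : 0 < b) (hA : Bdd b A) : 0 < mass b := by
  obtain ⟨N, hN⟩ := exists_nat_gt (4 * b * A)
  suffices ∃ R, 2 * b * shell b R < 1 by obtain ⟨R, hR⟩ := this; exact mass_pos_of_shell hb hR
  by_contra hcon
  push Not at hcon
  have h1 : (N : ℝ) ≤ ∑ R ∈ Finset.range N, 2 * b * shell b R := by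
    simpa using Finset.card_nsmul_le_sum (Finset.range N) _ 1 fun R _ => hcon R
  have h2 : ∑ R ∈ Finset.range N, shell b R ≤ 2 * A := by
    have e : ∀ R ∈ Finset.range N, shell b R
        = ∑ u ∈ box N, if R ≤ nrm u ∧ nrm u ≤ R + 1 then G b u else 0 := fun R hR => by
      rw [← Finset.sum_filter, shell]
      refine Finset.sum_congr ?_ fun _ _ => rfl
      ext u
      simp only [Finset.mem_filter, mem_box]
      have := Finset.mem_range.1 hR
      omega
    rw [Finset.sum_congr rfl e, Finset.sum_comm]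
    refine (Finset.sum_le_sum fun u _ => ?_).trans
      ((Finset.mul_sum _ _ _).symm.trans_le (mul_le_mul_of_nonneg_left (hA N) zero_le_two))
    rw [← Finset.sum_filter, Finset.sum_const, nsmul_eq_mul]
    refine mul_le_mul_of_nonneg_right ?_ (G_nonneg hb.le u)
    have hsub : (Finset.range N).filter (fun R => R ≤ nrm u ∧ nrm u ≤ R + 1) ⊆ {nrm u - 1, nrm u} := by
      intro R hR
      have := (Finset.mem_filter.1 hR).2
      simp only [Finset.mem_insert, Finset.mem_singleton]
      omega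
    exact_mod_cast (Finset.card_le_card hsub).trans Finset.card_le_two
  rw [← Finset.mul_sum] at h1
  nlinarith [mul_le_mul_of_nonneg_left h2 (by linarith : (0 : ℝ) ≤ 2 * b)]

end Vale.Agent.P159
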