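import Vale.Agent.P159.Simon

/-!
# P159: the susceptibility cannot blow up faster than linearly in the inverse temperature
-/

open Real Filter Topology

namespace Vale.Agent.P159

variable {V : Type*} [Fintype V] [DecidableEq V]

/-- Finite-volume stability of the susceptibility under a small increase of the couplings. -/
theorem chi_stable {J K : V → V → ℝ} (hJ : ∀ a b, 0 ≤ J a b) (hK : ∀ a b, 0 ≤ K a b) {d : ℝ} (hd0 : 0 ≤ d)
    (hd : ∀ u, ∑ v, (K u v + K v u) ≤ d) {A : ℝ} (hA1 : 0 < A) (hA : ∀ x, ∑ y, corr J x y ≤ A) {T : ℝ}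
    (hT : 0 ≤ T) (hsmall : 2 * d * A * T < 1) (x : V) : ∑ y, corr (lineJ J K T) x y ≤ 2 * A := by
  have hne : (Finset.univ : Finset V).Nonempty := ⟨x, Finset.mem_univ x⟩
  set Φ : V → ℝ → ℝ := fun z t => ∑ y, corr (lineJ J K t) z y with hΦ
  set M : ℝ → ℝ := fun t => Finset.univ.sup' hne fun z => Φ z t with hM
  have hder : ∀ z t, HasDerivAt (Φ z)
      (∑ y, ∑ e : V × V, K e.1 e.2 * cov (lineJ J K t) z y e.1 e.2) t := fun z t => by
    rw [hΦ]; exact HasDerivAt.fun_sum fun y _ => hasDerivAt_corr J K z y t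
  have hcont : Continuous M := Continuous.finset_sup'_apply hne fun z _ =>
    continuous_iff_continuousAt.2 fun t => (hder z t).continuousAt
  by_contra hcon
  push Not at hcon
  have e0 : lineJ J K 0 = J := by funext p q; simp [lineJ]
  have hM0 : M 0 ≤ 2 * A := Finset.sup'_le _ _ fun z _ => by
    simp only [hΦ, e0]; linarith [hA z]
  have hMT : 2 * A ≤ M T := hcon.le.trans (Finset.le_sup' (fun z => Φ z T) (Finset.mem_univ x))
  obtain ⟨τ, ⟨hτ0, hτT⟩, hτ⟩ := intermediate_value_Icc hT hcont.continuousOn ⟨hM0, hMT⟩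
  have hbound : ∀ s ∈ Set.Icc 0 τ, ∀ z, Φ z s ≤ 2 * A := fun s hs z => by
    refine le_trans (Finset.sum_le_sum fun y _ => corr_lineJ_mono hJ hK z y hs.1
      (Set.mem_Ici.2 (hs.1.trans hs.2)) hs.2) ?_
    rw [← hτ]
    exact Finset.le_sup' (fun z => Φ z τ) (Finset.mem_univ z)
  obtain ⟨z, -, hz⟩ := Finset.exists_mem_eq_sup' hne (fun z => Φ z τ)
  have hz' : Φ z τ = 2 * A := hz.symm.trans hτ
  have hslope := (convex_Icc (0 : ℝ) τ).image_sub_le_mul_sub_of_deriv_le (f := Φ z)
    (fun s _ => (hder z s).continuousAt.continuousWithinAt)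
    (fun s _ => (hder z s).differentiableAt.differentiableWithinAt) (C := 2 * d * A ^ 2) (fun s hs => by
      rw [interior_Icc] at hs
      have hs' : s ∈ Set.Icc 0 τ := Set.Ioo_subset_Icc_self hs
      have hL := lineJ_nonneg hJ hK hs'.1
      rw [(hder z s).deriv]
      set L := lineJ J K s
      have hM2 : ∀ a, ∑ y, corr L a y ≤ 2 * A := fun a => hbound s hs' a
      rw [Finset.sum_comm]
      calc ∑ e : V × V, ∑ y, K e.1 e.2 * cov L z y e.1 e.2
          ≤ ∑ e : V × V, K e.1 e.2 * ((corr L z e.1 * (2 * A) + corr L z e.2 * (2 * A)) / 2) := by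
            refine Finset.sum_le_sum fun e _ => ?_
            rw [← Finset.mul_sum]
            refine mul_le_mul_of_nonneg_left ?_ (hK _ _)
            refine (Finset.sum_le_sum fun y _ => (cov_bounds hL z y e.1 e.2).2).trans ?_
            rw [← Finset.sum_div, Finset.sum_add_distrib, ← Finset.mul_sum, ← Finset.mul_sum]
            exact div_le_div_of_nonneg_right (add_le_add
              (mul_le_mul_of_nonneg_left (hM2 _) (corr_nonneg hL _ _))
              (mul_le_mul_of_nonneg_left (hM2 _) (corr_nonneg hL _ _))) zero_le_two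
        _ = A * ∑ u, corr L z u * ∑ v, (K u v + K v u) := by
            have hswap : ∑ e : V × V, A * (K e.1 e.2 * corr L z e.2)
                = ∑ e : V × V, A * (corr L z e.1 * K e.2 e.1) := by
              rw [← Equiv.sum_comp (Equiv.prodComm V V)]
              exact Finset.sum_congr rfl fun e _ => by simp only [Equiv.prodComm_apply, Prod.fst_swap, Prod.snd_swap]; ring
            simp only [Finset.mul_sum, mul_add, Finset.sum_add_distrib]
            rw [← Fintype.sum_prod_type (f := fun e : V × V => A * (corr L z e.1 * K e.1 e.2)),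
              ← Fintype.sum_prod_type (f := fun e : V × V => A * (corr L z e.1 * K e.2 e.1)),
              ← hswap, ← Finset.sum_add_distrib]
            exact Finset.sum_congr rfl fun e _ => by ring
        _ ≤ A * ∑ u, corr L z u * d := mul_le_mul_of_nonneg_left
            (Finset.sum_le_sum fun u _ => mul_le_mul_of_nonneg_left (hd u) (corr_nonneg hL _ _)) hA1.le
        _ ≤ 2 * d * A ^ 2 := by
            rw [← Finset.sum_mul]
            nlinarith [mul_le_mul_of_nonneg_right (mul_le_mul_of_nonneg_left (hM2 z) hA1.le) hd0])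
    0 (Set.left_mem_Icc.2 hτ0) τ (Set.right_mem_Icc.2 hτ0) hτ0
  have hΦ0 : Φ z 0 ≤ A := by simpa only [hΦ, e0] using hA z
  have h1 : 2 * d * A ^ 2 * τ ≤ 2 * d * A ^ 2 * T := mul_le_mul_of_nonneg_left hτT (by positivity)
  have h2 : 2 * d * A * T * A < 1 * A := mul_lt_mul_of_pos_right hsmall hA1
  rw [hz', sub_zero] at hslope
  linarith

omit [Fintype V] [DecidableEq V] in
theorem sum_corrS_le {b A : ℝ} (hb : 0 ≤ b) (hA : Bdd b A) (S : Finset (ℤ × ℤ)) (x : ℤ × ℤ) :
    ∑ y ∈ S, corrS b S x y ≤ A := by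
  refine (Finset.sum_le_sum fun y _ => (corrS_le_C hb S x y).trans_eq (C_eq_G hb x y)).trans ?_
  obtain ⟨R, hR⟩ := exists_box (S.image fun y => y - x)
  rw [← Finset.sum_image (f := G b) (g := fun y => y - x) (fun a _ c _ h => sub_left_injective h)]
  exact (Finset.sum_le_sum_of_subset_of_nonneg hR fun y _ _ => G_nonneg hb y).trans (hA R)

omit [Fintype V] [DecidableEq V] in
/-- If the susceptibility at `b` is at most `A`, it is at most `2A` for a stretch of length `≈ 1/(8A)`. -/
theorem bdd_step {b A Δ : ℝ} (hb : 0 ≤ b) (hA : Bdd b A) (hΔ : 0 ≤ Δ) (hsmall : 8 * A * Δ < 1) :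
    Bdd (b + Δ) (2 * A) := by
  intro R
  have hA1 : 0 < A := one_pos.trans_le (hA.one_le hb)
  refine le_of_tendsto' (tendsto_finsetSum _ fun y _ => tendsto_C (add_nonneg hb hΔ) 0 y) fun N => ?_
  set S := box (max N R)
  refine (Finset.sum_le_sum fun y _ => corrS_mono_set (add_nonneg hb hΔ) (box_mono (le_max_left N R)) 0 y).trans
    ((Finset.sum_le_sum_of_subset_of_nonneg (box_mono (le_max_right N R))
      fun y _ _ => corrS_nonneg (add_nonneg hb hΔ) _ 0 y).trans ?_)
  have e : lineJ (coup b S) (fun p q : ↥S => adj p.1 q.1 / 2) Δ = coup (b + Δ) S := by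
    funext p q; simp only [lineJ, coup]; ring
  have h := chi_stable (coup_nonneg hb S) (K := fun p q : ↥S => adj p.1 q.1 / 2)
    (fun p q => div_nonneg (adj_nonneg _ _) zero_le_two) (d := 4) (by norm_num) (fun u => by
      have := sum_adj_le S u.1
      rw [← Finset.sum_coe_sort S (adj u.1)] at this
      refine le_trans (le_of_eq (Finset.sum_congr rfl fun v _ => ?_)) this
      rw [adj_comm v.1 u.1]; ring)
    hA1 (fun x => by
      simp only [← corrS_coe]
      exact (Finset.sum_coe_sort S (corrS b S x.1)).trans_le (sum_corrS_le hb hA S x.1))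
    hΔ (by linarith) (⟨0, zero_mem_box _⟩ : ↥S)
  rw [e] at h
  simp only [← corrS_coe] at h
  exact (Finset.sum_coe_sort S (corrS (b + Δ) S 0)).symm.trans_le h

omit [Fintype V] [DecidableEq V] in
/-- Distance to a point where the mass vanishes, from below. -/
theorem one_le_of_mass_eq_zero {b b' A : ℝ} (hb : 0 < b) (hbb : b ≤ b') (hA : Bdd b A)
    (h0 : mass b' = 0) : 1 ≤ 8 * A * (b' - b) := by
  by_contra hcon
  push Not at hcon
  have h := bdd_step hb.le hA (sub_nonneg.2 hbb) hcon
  rw [add_sub_cancel] at h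
  exact (mass_pos_of_bdd (hb.trans_le hbb) h).ne' h0

end Vale.Agent.P159
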