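import Vale.Agent.P159.Model

/-!
# P159: complex twist, disconnection and a positive lower bound
-/

open MeasureTheory Real

namespace Vale.Agent.P159

variable {V : Type*} [Fintype V]

/-- The Hamiltonian at complex angles `θ + iα`. -/
noncomputable def hamC (J : V → V → ℝ) (α θ : V → ℝ) : ℂ :=
  ∑ e : V × V, (J e.1 e.2 : ℂ) *
    Complex.cos (((θ e.1 - θ e.2 : ℝ) : ℂ) + ((α e.1 - α e.2 : ℝ) : ℂ) * Complex.I)

/-- A uniform bound for `hamC`. -/
noncomputable def totC (J : V → V → ℝ) (α : V → ℝ) : ℝ :=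
  ∑ e : V × V, |J e.1 e.2| * (cosh (α e.1 - α e.2) + |sinh (α e.1 - α e.2)|)

theorem norm_hamC_le (J : V → V → ℝ) (α θ : V → ℝ) : ‖hamC J α θ‖ ≤ totC J α := by
  refine (norm_sum_le _ _).trans (Finset.sum_le_sum fun e _ => ?_)
  rw [norm_mul, Complex.norm_real, Real.norm_eq_abs]
  refine mul_le_mul_of_nonneg_left ?_ (abs_nonneg _)
  rw [Complex.cos_add_mul_I, ← Complex.ofReal_cos, ← Complex.ofReal_cosh, ← Complex.ofReal_sin,
    ← Complex.ofReal_sinh, ← Complex.ofReal_mul, ← Complex.ofReal_mul]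
  refine (norm_sub_le _ _).trans (add_le_add ?_ ?_)
  · rw [Complex.norm_real, Real.norm_eq_abs, abs_mul, abs_of_pos (cosh_pos _)]
    exact mul_le_of_le_one_left (cosh_pos _).le (abs_cos_le_one _)
  · rw [norm_mul, Complex.norm_I, mul_one, Complex.norm_real, Real.norm_eq_abs, abs_mul]
    exact mul_le_of_le_one_left (abs_nonneg _) (abs_sin_le_one _)

theorem re_hamC (J : V → V → ℝ) (α θ : V → ℝ) :
    (hamC J α θ).re = ∑ e : V × V, J e.1 e.2 * (cos (θ e.1 - θ e.2) * cosh (α e.1 - α e.2)) := by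
  rw [hamC, Complex.re_sum]
  refine Finset.sum_congr rfl fun e _ => ?_
  rw [Complex.cos_add_mul_I, ← Complex.ofReal_cos, ← Complex.ofReal_cosh, ← Complex.ofReal_sin,
    ← Complex.ofReal_sinh, ← Complex.ofReal_mul, ← Complex.ofReal_mul]
  simp only [Complex.mul_re, Complex.sub_re, Complex.ofReal_re, Complex.ofReal_im,
    Complex.I_re, Complex.I_im, mul_zero, zero_mul, sub_zero, mul_one]

@[fun_prop]
theorem continuous_hamC (J : V → V → ℝ) (α : V → ℝ) : Continuous (hamC J α) := by
  unfold hamC; fun_prop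

/-- The twisted weight of a character. -/
noncomputable def twistFun (J : V → V → ℝ) (D : V → ℤ) (α θ : V → ℝ) : ℂ :=
  Complex.exp ((dot D θ : ℂ) * Complex.I) * Complex.exp (hamC J α θ)

theorem norm_twistFun (J : V → V → ℝ) (D : V → ℤ) (α θ : V → ℝ) :
    ‖twistFun J D α θ‖ = exp (hamC J α θ).re := by
  rw [twistFun, norm_mul, Complex.norm_exp_ofReal_mul_I, one_mul, Complex.norm_exp]

theorem integrable_twistFun (J : V → V → ℝ) (D : V → ℤ) (α : V → ℝ) :
    Integrable (twistFun J D α) (angles V) :=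
  Integrable.of_bound (by unfold twistFun; fun_prop) (exp (totC J α))
    (Filter.Eventually.of_forall fun θ => by
      rw [norm_twistFun, exp_le_exp]
      exact (Complex.re_le_norm _).trans (norm_hamC_le J α θ))

theorem twistFun_zero (J : V → V → ℝ) (D : V → ℤ) (θ : V → ℝ) :
    twistFun J D (fun _ => 0) θ = Complex.exp ((dot D θ : ℂ) * Complex.I) * (exp (ham J θ) : ℂ) := by
  simp [twistFun, hamC, ham, Complex.ofReal_sum, Complex.ofReal_exp]

variable [DecidableEq V]

/-- The `k`-th term of the single series. -/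
noncomputable def wordSum (J : V → V → ℝ) (D : V → ℤ) (k : ℕ) : ℝ :=
  (∑ w : Fin k → V × V, wt J w * cnt (fun j => (w j).1) (fun j => (w j).2) D) / k.factorial

theorem twist_word {k : ℕ} (J : V → V → ℝ) (D : V → ℤ) (α : V → ℝ) (w : Fin k → V × V) :
    ∫ θ, Complex.exp ((dot D θ : ℂ) * Complex.I) *
        ∏ j, ((J (w j).1 (w j).2 : ℂ) * Complex.cos (((θ (w j).1 - θ (w j).2 : ℝ) : ℂ)
          + ((α (w j).1 - α (w j).2 : ℝ) : ℂ) * Complex.I)) ∂angles V
      = ((exp (dot D α) * (wt J w * cnt (fun j => (w j).1) (fun j => (w j).2) D) : ℝ) : ℂ) := by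
  set u := fun j => (w j).1
  set v := fun j => (w j).2
  have e : ∀ θ : V → ℝ, Complex.exp ((dot D θ : ℂ) * Complex.I) *
        ∏ j, ((J (w j).1 (w j).2 : ℂ) * Complex.cos (((θ (w j).1 - θ (w j).2 : ℝ) : ℂ)
          + ((α (w j).1 - α (w j).2 : ℝ) : ℂ) * Complex.I))
      = ∑ σ : Fin k → Bool, ((wt J w * exp (-dot (flow u v σ) α) : ℝ) : ℂ) *
          Complex.exp ((dot (D + flow u v σ) θ : ℂ) * Complex.I) := by
    intro θ
    have hc : ∀ j, (J (w j).1 (w j).2 : ℂ) * Complex.cos (((θ (w j).1 - θ (w j).2 : ℝ) : ℂ)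
          + ((α (w j).1 - α (w j).2 : ℝ) : ℂ) * Complex.I)
        = ((J (w j).1 (w j).2 * (1 / 2) : ℝ) : ℂ) * ∑ b : Bool, Complex.exp ((sgn b : ℂ) *
            (((θ (w j).1 - θ (w j).2 : ℝ) : ℂ) * Complex.I - ((α (w j).1 - α (w j).2 : ℝ) : ℂ))) := by
      intro j
      simp only [Fintype.sum_bool, sgn, Complex.cos, if_true, Bool.false_eq_true, if_false]
      push_cast
      ring_nf
      simp only [Complex.I_sq]
      ring_nf
    simp only [hc, Finset.prod_mul_distrib]
    rw [Fintype.prod_sum (fun j (b : Bool) => Complex.exp ((sgn b : ℂ) *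
            (((θ (w j).1 - θ (w j).2 : ℝ) : ℂ) * Complex.I - ((α (w j).1 - α (w j).2 : ℝ) : ℂ)))),
      Finset.mul_sum, Finset.mul_sum]
    refine Finset.sum_congr rfl fun σ _ => ?_
    have hw : ((wt J w : ℝ) : ℂ) = ∏ j, ((J (w j).1 (w j).2 * (1 / 2) : ℝ) : ℂ) := by
      rw [wt, ← Complex.ofReal_prod, Finset.prod_mul_distrib, Finset.prod_const, Finset.card_univ,
        Fintype.card_fin]
    rw [Complex.ofReal_mul, hw, Complex.ofReal_exp, dot_add, flow_eq_charge, dot_charge, dot_charge,
      mul_assoc, ← Complex.exp_add, ← Complex.exp_sum, mul_left_comm, ← Complex.exp_add]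
    congr 2
    push_cast
    rw [add_mul, Finset.sum_mul, ← sub_eq_zero]
    simp only [← Finset.sum_neg_distrib]
    rw [add_left_comm, ← Finset.sum_add_distrib, sub_eq_zero]
    congr 1
    exact Finset.sum_congr rfl fun j _ => by ring
  simp only [e]
  rw [integral_finsetSum _ fun σ _ => (Integrable.of_bound (by fun_prop) 1
    (Filter.Eventually.of_forall fun θ => (Complex.norm_exp_ofReal_mul_I _).le)).const_mul _]
  simp only [integral_const_mul, character]
  rw [← cnt_neg, cnt, Finset.mul_sum, Finset.mul_sum]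
  push_cast
  refine Finset.sum_congr rfl fun σ _ => ?_
  by_cases h : flow u v σ = -D
  · rw [if_pos (by rw [h, add_neg_cancel]), ind, if_pos h, h, dot_neg]
    push_cast
    simp only [neg_neg]
    ring
  · rw [if_neg (fun h' => h (eq_neg_of_add_eq_zero_right h')), ind, if_neg h]
    simp

theorem hasSum_twist (J : V → V → ℝ) (D : V → ℤ) (α : V → ℝ) :
    HasSum (fun k => ((exp (dot D α) * wordSum J D k : ℝ) : ℂ)) (∫ θ, twistFun J D α θ ∂angles V) := by
  set F : ℕ → (V → ℝ) → ℂ := fun k θ =>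
    Complex.exp ((dot D θ : ℂ) * Complex.I) * (hamC J α θ ^ k / k.factorial)
  have h := hasSum_integral_of_dominated_convergence (μ := angles V) (F := F)
    (f := twistFun J D α) (fun k _ => totC J α ^ k / k.factorial)
    (fun k => by fun_prop)
    (fun k => Filter.Eventually.of_forall fun θ => by
      rw [norm_mul, Complex.norm_exp_ofReal_mul_I, one_mul, norm_div, norm_pow, Complex.norm_natCast]
      gcongr
      exact norm_hamC_le J α θ)
    (Filter.Eventually.of_forall fun _ => Real.summable_pow_div_factorial _)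
    (integrable_const _)
    (Filter.Eventually.of_forall fun θ => by
      have := (NormedSpace.expSeries_div_hasSum_exp (hamC J α θ)).mul_left
        (Complex.exp ((dot D θ : ℂ) * Complex.I))
      rwa [← Complex.exp_eq_exp_ℂ] at this)
  refine h.congr_fun fun k => ?_
  have e : ∀ θ, F k θ = (∑ w : Fin k → V × V, Complex.exp ((dot D θ : ℂ) * Complex.I) *
      ∏ j, ((J (w j).1 (w j).2 : ℂ) * Complex.cos (((θ (w j).1 - θ (w j).2 : ℝ) : ℂ)
          + ((α (w j).1 - α (w j).2 : ℝ) : ℂ) * Complex.I))) / k.factorial := by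
    intro θ
    simp only [F, hamC, Fintype.sum_pow]
    rw [mul_div_assoc', Finset.mul_sum]
  simp only [e]
  rw [integral_div, integral_finsetSum _ fun w _ => ?_, wordSum]
  · simp only [twist_word]
    push_cast
    rw [mul_div_assoc', Finset.mul_sum]
  · obtain ⟨C, hC⟩ : ∃ C, ∀ θ : V → ℝ, ‖∏ j, ((J (w j).1 (w j).2 : ℂ) *
        Complex.cos (((θ (w j).1 - θ (w j).2 : ℝ) : ℂ)
          + ((α (w j).1 - α (w j).2 : ℝ) : ℂ) * Complex.I))‖ ≤ C := by
      refine ⟨∏ j, |J (w j).1 (w j).2| * (cosh (α (w j).1 - α (w j).2) + |sinh (α (w j).1 - α (w j).2)|),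
        fun θ => ?_⟩
      rw [norm_prod]
      refine Finset.prod_le_prod (fun _ _ => norm_nonneg _) fun j _ => ?_
      rw [norm_mul, Complex.norm_real, Real.norm_eq_abs]
      refine mul_le_mul_of_nonneg_left ?_ (abs_nonneg _)
      rw [Complex.cos_add_mul_I, ← Complex.ofReal_cos, ← Complex.ofReal_cosh, ← Complex.ofReal_sin,
        ← Complex.ofReal_sinh, ← Complex.ofReal_mul, ← Complex.ofReal_mul]
      refine (norm_sub_le _ _).trans (add_le_add ?_ ?_)
      · rw [Complex.norm_real, Real.norm_eq_abs, abs_mul, abs_of_pos (cosh_pos _)]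
        exact mul_le_of_le_one_left (cosh_pos _).le (abs_cos_le_one _)
      · rw [norm_mul, Complex.norm_I, mul_one, Complex.norm_real, Real.norm_eq_abs, abs_mul]
        exact mul_le_of_le_one_left (abs_nonneg _) (abs_sin_le_one _)
    exact Integrable.of_bound (by fun_prop) C (Filter.Eventually.of_forall fun θ => by
      rw [norm_mul, Complex.norm_exp_ofReal_mul_I, one_mul]
      exact hC θ)

theorem integral_twist (J : V → V → ℝ) (D : V → ℤ) (α : V → ℝ) :
    (∫ θ, twistFun J D α θ ∂angles V).re = exp (dot D α) * zc J D := by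
  have h := Complex.hasSum_re (hasSum_twist J D α)
  have h0 := Complex.hasSum_re (hasSum_twist J D fun _ => 0)
  simp only [Complex.ofReal_re] at h h0
  have hd : dot D (fun _ => 0) = 0 := by simp [dot]
  simp only [hd, exp_zero, one_mul] at h0
  rw [h.unique (h0.mul_left _)]
  congr 1
  rw [← RCLike.re_to_complex, ← integral_re (integrable_twistFun J D _), zc, pf]
  refine integral_congr_ae (Filter.Eventually.of_forall fun θ => ?_)
  simp only [twistFun_zero, RCLike.re_to_complex, Complex.re_mul_ofReal, Complex.exp_ofReal_mul_I_re]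

omit [DecidableEq V] in
/-- The cost of a twist. -/
theorem re_hamC_le {J : V → V → ℝ} (hJ : ∀ a b, 0 ≤ J a b) (α θ : V → ℝ) :
    (hamC J α θ).re ≤ ham J θ + ∑ e : V × V, J e.1 e.2 * (cosh (α e.1 - α e.2) - 1) := by
  rw [re_hamC, ham, ← Finset.sum_add_distrib]
  refine Finset.sum_le_sum fun e _ => ?_
  rw [← mul_add]
  refine mul_le_mul_of_nonneg_left ?_ (hJ _ _)
  nlinarith [cos_le_one (θ e.1 - θ e.2), one_le_cosh (α e.1 - α e.2)]

/-- The McBryan–Spencer bound. -/
theorem corr_twist_le {J : V → V → ℝ} (hJ : ∀ a b, 0 ≤ J a b) (α : V → ℝ) (a b : V) :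
    corr J a b ≤ exp ((∑ e : V × V, J e.1 e.2 * (cosh (α e.1 - α e.2) - 1)) - (α a - α b)) := by
  set S := ∑ e : V × V, J e.1 e.2 * (cosh (α e.1 - α e.2) - 1)
  have hz := zc_zero_pos J
  have h1 : exp (α a - α b) * zc J (pt a - pt b) ≤ exp S * zc J 0 := by
    rw [← dot_pt_sub a b α, ← integral_twist]
    refine ((Complex.re_le_norm _).trans (norm_integral_le_integral_norm _)).trans ?_
    rw [zc_zero, pf, ← integral_const_mul]
    refine integral_mono (integrable_twistFun J _ α).norm
      ((integrable_weight J continuous_const (C := 1) (by simp)).const_mul _) fun θ => ?_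
    simp only [norm_twistFun, one_mul, ← exp_add, exp_le_exp]
    linarith [re_hamC_le hJ α θ]
  rw [corr_eq, div_le_iff₀ hz, exp_sub, div_mul_eq_mul_div, le_div_iff₀ (exp_pos _)]
  linarith

/-- No correlation across a set carrying no bond. -/
theorem corr_eq_zero_of_cut {J : V → V → ℝ} (S : V → Prop) [DecidablePred S]
    (hJ : ∀ p q, ¬(S p ↔ S q) → J p q = 0) {a b : V} (ha : S a) (hb : ¬S b) : corr J a b = 0 := by
  have h := hasSum_pair J (pt a - pt b) 0
  have h0 : ∀ k, pairTerm J (pt a - pt b) 0 k = 0 := by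
    intro k
    rw [pairTerm, Finset.sum_eq_zero, zero_div]
    intro w _
    by_cases hw : ∀ j, (S (w j).1 ↔ S (w j).2)
    · have : cnt (fun j => (w j).1) (fun j => (w j).2) (pt a - pt b + 0) = 0 := by
        refine Finset.sum_eq_zero fun σ _ => if_neg fun hσ => ?_
        have := congrArg (fun D : V → ℤ => ∑ z ∈ Finset.univ.filter S, D z) hσ
        simp only [flow, add_zero, Pi.sub_apply, Finset.sum_sub_distrib, pt, Finset.sum_ite_eq,
          Finset.mem_filter, Finset.mem_univ, true_and, ha, hb, if_true, if_false, sub_zero] at this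
        rw [Finset.sum_comm] at this
        rw [Finset.sum_eq_zero fun j _ => ?_] at this
        · exact zero_ne_one this
        · rw [← Finset.mul_sum, Finset.sum_sub_distrib, Finset.sum_ite_eq, Finset.sum_ite_eq]
          by_cases h1 : S (w j).1
          · simp [h1, (hw j).1 h1]
          · have h2 : ¬S (w j).2 := fun h2 => h1 ((hw j).2 h2)
            simp [h1, h2]
      rw [this, zero_mul, mul_zero]
    · push Not at hw
      obtain ⟨j, hj⟩ := hw
      rw [wt, Finset.prod_eq_zero (Finset.mem_univ j) (hJ _ _ fun hi => by tauto), zero_mul, zero_mul]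
  have := h.unique (hasSum_zero.congr_fun h0)
  rw [corr_eq, (mul_eq_zero.1 this).resolve_right (zc_zero_pos J).ne', zero_div]

/-- Adjacent vertices are correlated. -/
theorem corr_pos_of_coupling {J : V → V → ℝ} (hJ : ∀ p q, 0 ≤ J p q) {a b : V}
    (hpos : 0 < J a b) : 0 < corr J a b := by
  have h := hasSum_pair J (pt a - pt b) 0
  have hnn : ∀ k, 0 ≤ pairTerm J (pt a - pt b) 0 k := fun k =>
    div_nonneg (Finset.sum_nonneg fun w _ => by
      rw [add_zero, sub_zero]
      exact mul_nonneg (wt_nonneg hJ w) (mul_self_nonneg _)) (Nat.cast_nonneg _)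
  have h1 : 0 < pairTerm J (pt a - pt b) 0 1 := by
    rw [pairTerm]
    refine div_pos (Finset.sum_pos' (fun w _ => ?_) ⟨fun _ => (a, b), Finset.mem_univ _, ?_⟩) (by norm_num)
    · rw [add_zero, sub_zero]
      exact mul_nonneg (wt_nonneg hJ w) (mul_self_nonneg _)
    · rw [add_zero, sub_zero]
      have hc : 1 ≤ cnt (fun _ : Fin 1 => a) (fun _ => b) (pt a - pt b) := by
        refine le_trans ?_ (Finset.single_le_sum (f := fun σ : Fin 1 → Bool =>
          ind (flow (fun _ => a) (fun _ => b) σ = pt a - pt b))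
          (fun σ _ => by unfold ind; split_ifs <;> norm_num) (Finset.mem_univ fun _ => true))
        rw [ind, if_pos]
        funext z
        simp [flow, pt, sgn]
      have hw : 0 < wt J (fun _ : Fin 1 => (a, b)) := by simp [wt, hpos]
      positivity
  have : 0 < zc J (pt a - pt b) * zc J 0 := h1.trans_le (le_hasSum h 1 fun k _ => hnn k)
  rw [corr_eq]
  exact div_pos (pos_of_mul_pos_left this (zc_zero_pos J).le) (zc_zero_pos J)

end Vale.Agent.P159
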